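import Vale.Agent.P252.Rigidity.General.Cert5.Jets

/-! Block forms of one basic field in one frame, generated and checked by `ring`. -/

namespace Vale.Agent.P252.General.Cert5

open Vale.Agent.P100T.PosCheck
open scoped Matrix

set_option linter.unusedSimpArgs false

/-- Block 0 of one output. -/
def b2DI_0 : Fin 9 → Fin 9 → Ex :=
  ![![m3 (196) 0 0 0, .num 0, m3 (49) 0 0 0, .num 0, .num 0, .num 0, .num 0, m3 (84) 0 0 2, .num 0],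
    ![.num 0, m3 (294) 0 0 0, .num 0, .num 0, .num 0, .num 0, .num 0, .num 0, .num 0],
    ![m3 (49) 0 0 0, .num 0, m3 (196) 0 0 0, .num 0, .num 0, .num 0, .num 0, m3 (-42) 0 0 2, .num 0],
    ![.num 0, .num 0, .num 0, .num 0, .num 0, .num 0, .num 0, m3 (-63) 0 0 3, .num 0],
    ![.num 0, .num 0, .num 0, .num 0, .num 0, .num 0, .num 0, .num 0, .num 0],
    ![.num 0, .num 0, .num 0, .num 0, .num 0, .num 0, .num 0, .num 0, .num 0],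
    ![.num 0, .num 0, .num 0, .num 0, .num 0, .num 0, .num 0, .num 0, .num 0],
    ![m3 (84) 0 0 2, .num 0, m3 (-42) 0 0 2, m3 (-63) 0 0 3, .num 0, .num 0, .num 0, m3 (36) 0 0 4, .num 0],
    ![.num 0, .num 0, .num 0, .num 0, .num 0, .num 0, .num 0, .num 0, .num 0]]

/-- Block 1 of one output. -/
def b2DI_1 : Fin 5 → Fin 5 → Ex :=
  ![![m3 (294) 0 0 0, .num 0, .num 0, .num 0, .num 0],
    ![.num 0, m3 (294) 0 0 0, .num 0, .num 0, .num 0],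
    ![.num 0, .num 0, .num 0, .num 0, .num 0],
    ![.num 0, .num 0, .num 0, .num 0, .num 0],
    ![.num 0, .num 0, .num 0, .num 0, .num 0]]

/-- Block 2 of one output. -/
def b2DI_2 : Fin 3 → Fin 3 → Ex :=
  ![![m3 (294) 0 0 0, .num 0, .num 0],
    ![.num 0, .num 0, .num 0],
    ![.num 0, .num 0, .num 0]]

lemma b2DI (X Y Z : ℝ) (p : Par) (S₂ S₃ S₄ : Matrix (Fin 5) (Fin 5) ℝ) :
    (jetI X Y Z p S₂ S₃ S₄).baseDiv (.h 0) =
      blocks X Y Z p b2DI_0 b2DI_1 b2DI_2 (Z ^ 2) Z 0 / 147 := by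
  norm_num [Jet.baseDiv, Jet.baseY, Jet.gradH, Jet.gradT, Jet.dd, Jet.du, Jet.dl, Jet.Z, C_jetI]
  simp [jetI, Par.mH, Par.mA, Par.mB, Par.x0, Par.x1, Par.x2, blocks, qf,
    b2DI_0, b2DI_1, b2DI_2, m3, PolyPSD.evalAt, Ex.eval, dotProduct, Matrix.mulVec, Matrix.trace,
    Matrix.mul_apply, Matrix.vecMulVec_apply, Matrix.vecMul, Matrix.one_apply, Fin.sum_univ_succ]
  all_goals ring

/-- Block 0 of one output. -/
def b2VI_0 : Fin 9 → Fin 9 → Ex :=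
  ![![.num 0, .num 0, .num 0, .num 0, .num 0, .num 0, .num 0, m3 (1) 1 0 1, .num 0],
    ![.num 0, .num 0, .num 0, .num 0, .num 0, .num 0, .num 0, m3 (1) 0 1 1, .num 0],
    ![.num 0, .num 0, .num 0, .num 0, .num 0, .num 0, .num 0, .num 0, .num 0],
    ![.num 0, .num 0, .num 0, .num 0, .num 0, .num 0, .num 0, .num 0, .num 0],
    ![.num 0, .num 0, .num 0, .num 0, .num 0, .num 0, .num 0, .num 0, .num 0],
    ![.num 0, .num 0, .num 0, .num 0, .num 0, .num 0, .num 0, .num 0, .num 0],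
    ![.num 0, .num 0, .num 0, .num 0, .num 0, .num 0, .num 0, .num 0, .num 0],
    ![m3 (1) 1 0 1, m3 (1) 0 1 1, .num 0, .num 0, .num 0, .num 0, .num 0, .num 0, .num 0],
    ![.num 0, .num 0, .num 0, .num 0, .num 0, .num 0, .num 0, .num 0, .num 0]]

/-- Block 1 of one output. -/
def b2VI_1 : Fin 5 → Fin 5 → Ex :=
  ![![.num 0, .num 0, .num 0, .num 0, .num 0],
    ![.num 0, .num 0, .num 0, .num 0, .num 0],
    ![.num 0, .num 0, .num 0, .num 0, .num 0],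
    ![.num 0, .num 0, .num 0, .num 0, .num 0],
    ![.num 0, .num 0, .num 0, .num 0, .num 0]]

/-- Block 2 of one output. -/
def b2VI_2 : Fin 3 → Fin 3 → Ex :=
  ![![.num 0, .num 0, .num 0],
    ![.num 0, .num 0, .num 0],
    ![.num 0, .num 0, .num 0]]

lemma b2VI (X Y Z : ℝ) (p : Par) (S₂ S₃ S₄ : Matrix (Fin 5) (Fin 5) ℝ) :
    (jetI X Y Z p S₂ S₃ S₄).v ⬝ᵥ (jetI X Y Z p S₂ S₃ S₄).baseY (.h 0) =
      blocks X Y Z p b2VI_0 b2VI_1 b2VI_2 (Z ^ 2) Z 0 / 2 := by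
  norm_num [Jet.baseDiv, Jet.baseY, Jet.gradH, Jet.gradT, Jet.dd, Jet.du, Jet.dl, Jet.Z, C_jetI]
  simp [jetI, Par.mH, Par.mA, Par.mB, Par.x0, Par.x1, Par.x2, blocks, qf,
    b2VI_0, b2VI_1, b2VI_2, m3, PolyPSD.evalAt, Ex.eval, dotProduct, Matrix.mulVec, Matrix.trace,
    Matrix.mul_apply, Matrix.vecMulVec_apply, Matrix.vecMul, Matrix.one_apply, Fin.sum_univ_succ]
  all_goals ring

/-- Block 0 of one output. -/
def b2TI_0 : Fin 9 → Fin 9 → Ex :=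
  ![![.num 0, .num 0, .num 0, .num 0, .num 0, .num 0, .num 0, m3 (1) 0 0 2, .num 0],
    ![.num 0, .num 0, .num 0, .num 0, .num 0, .num 0, .num 0, .num 0, .num 0],
    ![.num 0, .num 0, .num 0, .num 0, .num 0, .num 0, .num 0, .num 0, .num 0],
    ![.num 0, .num 0, .num 0, .num 0, .num 0, .num 0, .num 0, .num 0, .num 0],
    ![.num 0, .num 0, .num 0, .num 0, .num 0, .num 0, .num 0, .num 0, .num 0],
    ![.num 0, .num 0, .num 0, .num 0, .num 0, .num 0, .num 0, .num 0, .num 0],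
    ![.num 0, .num 0, .num 0, .num 0, .num 0, .num 0, .num 0, .num 0, .num 0],
    ![m3 (1) 0 0 2, .num 0, .num 0, .num 0, .num 0, .num 0, .num 0, .num 0, .num 0],
    ![.num 0, .num 0, .num 0, .num 0, .num 0, .num 0, .num 0, .num 0, .num 0]]

/-- Block 1 of one output. -/
def b2TI_1 : Fin 5 → Fin 5 → Ex :=
  ![![.num 0, .num 0, .num 0, .num 0, .num 0],
    ![.num 0, .num 0, .num 0, .num 0, .num 0],
    ![.num 0, .num 0, .num 0, .num 0, .num 0],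
    ![.num 0, .num 0, .num 0, .num 0, .num 0],
    ![.num 0, .num 0, .num 0, .num 0, .num 0]]

/-- Block 2 of one output. -/
def b2TI_2 : Fin 3 → Fin 3 → Ex :=
  ![![.num 0, .num 0, .num 0],
    ![.num 0, .num 0, .num 0],
    ![.num 0, .num 0, .num 0]]

lemma b2TI (X Y Z : ℝ) (p : Par) (S₂ S₃ S₄ : Matrix (Fin 5) (Fin 5) ℝ) :
    (jetI X Y Z p S₂ S₃ S₄).t ⬝ᵥ (jetI X Y Z p S₂ S₃ S₄).baseY (.h 0) =
      blocks X Y Z p b2TI_0 b2TI_1 b2TI_2 (Z ^ 2) Z 0 / 2 := by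
  norm_num [Jet.baseDiv, Jet.baseY, Jet.gradH, Jet.gradT, Jet.dd, Jet.du, Jet.dl, Jet.Z, C_jetI]
  simp [jetI, Par.mH, Par.mA, Par.mB, Par.x0, Par.x1, Par.x2, blocks, qf,
    b2TI_0, b2TI_1, b2TI_2, m3, PolyPSD.evalAt, Ex.eval, dotProduct, Matrix.mulVec, Matrix.trace,
    Matrix.mul_apply, Matrix.vecMulVec_apply, Matrix.vecMul, Matrix.one_apply, Fin.sum_univ_succ]
  all_goals ring

/-- Block 0 of one output. -/
def b2G00I_0 : Fin 9 → Fin 9 → Ex :=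
  ![![m3 (4) 0 0 2, .num 0, .num 0, m3 (-1) 0 0 3, .num 0, .num 0, .num 0, .num 0, .num 0],
    ![.num 0, m3 (4) 0 0 2, .num 0, .num 0, m3 (-1) 0 0 3, .num 0, .num 0, .num 0, .num 0],
    ![.num 0, .num 0, .num 0, .num 0, .num 0, .num 0, .num 0, .num 0, .num 0],
    ![m3 (-1) 0 0 3, .num 0, .num 0, .num 0, .num 0, .num 0, .num 0, .num 0, .num 0],
    ![.num 0, m3 (-1) 0 0 3, .num 0, .num 0, .num 0, .num 0, .num 0, .num 0, .num 0],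
    ![.num 0, .num 0, .num 0, .num 0, .num 0, .num 0, .num 0, .num 0, .num 0],
    ![.num 0, .num 0, .num 0, .num 0, .num 0, .num 0, .num 0, .num 0, .num 0],
    ![.num 0, .num 0, .num 0, .num 0, .num 0, .num 0, .num 0, .num 0, .num 0],
    ![.num 0, .num 0, .num 0, .num 0, .num 0, .num 0, .num 0, .num 0, .num 0]]

/-- Block 1 of one output. -/
def b2G00I_1 : Fin 5 → Fin 5 → Ex :=
  ![![m3 (4) 0 0 2, .num 0, m3 (-1) 0 0 3, .num 0, .num 0],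
    ![.num 0, .num 0, .num 0, .num 0, .num 0],
    ![m3 (-1) 0 0 3, .num 0, .num 0, .num 0, .num 0],
    ![.num 0, .num 0, .num 0, .num 0, .num 0],
    ![.num 0, .num 0, .num 0, .num 0, .num 0]]

/-- Block 2 of one output. -/
def b2G00I_2 : Fin 3 → Fin 3 → Ex :=
  ![![.num 0, .num 0, .num 0],
    ![.num 0, .num 0, .num 0],
    ![.num 0, .num 0, .num 0]]

lemma b2G00I (X Y Z : ℝ) (p : Par) (S₂ S₃ S₄ : Matrix (Fin 5) (Fin 5) ℝ) :
    (jetI X Y Z p S₂ S₃ S₄).dd 0 0 ⬝ᵥ (jetI X Y Z p S₂ S₃ S₄).baseY (.h 0) =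
      blocks X Y Z p b2G00I_0 b2G00I_1 b2G00I_2 (Z ^ 2) Z 0 / 2 := by
  norm_num [Jet.baseDiv, Jet.baseY, Jet.gradH, Jet.gradT, Jet.dd, Jet.du, Jet.dl, Jet.Z, C_jetI]
  simp [jetI, Par.mH, Par.mA, Par.mB, Par.x0, Par.x1, Par.x2, blocks, qf,
    b2G00I_0, b2G00I_1, b2G00I_2, m3, PolyPSD.evalAt, Ex.eval, dotProduct, Matrix.mulVec, Matrix.trace,
    Matrix.mul_apply, Matrix.vecMulVec_apply, Matrix.vecMul, Matrix.one_apply, Fin.sum_univ_succ]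
  all_goals ring

/-- Block 0 of one output. -/
def b2G01I_0 : Fin 9 → Fin 9 → Ex :=
  ![![m3 (2) 1 0 1, m3 (1) 0 1 1, .num 0, m3 (-1) 1 0 2, m3 (-1) 0 1 2, .num 0, .num 0, m3 (-1) 2 0 2, m3 (-1) 0 0 2],
    ![m3 (1) 0 1 1, m3 (2) 1 0 1, m3 (1) 0 1 1, .num 0, m3 (-1) 1 0 2, m3 (-1) 0 1 2, .num 0, m3 (-1) 1 1 2, .num 0],
    ![.num 0, m3 (1) 0 1 1, .num 0, .num 0, .num 0, .num 0, .num 0, .num 0, .num 0],
    ![m3 (-1) 1 0 2, .num 0, .num 0, .num 0, .num 0, .num 0, .num 0, .num 0, .num 0],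
    ![m3 (-1) 0 1 2, m3 (-1) 1 0 2, .num 0, .num 0, .num 0, .num 0, .num 0, .num 0, .num 0],
    ![.num 0, m3 (-1) 0 1 2, .num 0, .num 0, .num 0, .num 0, .num 0, .num 0, .num 0],
    ![.num 0, .num 0, .num 0, .num 0, .num 0, .num 0, .num 0, .num 0, .num 0],
    ![m3 (-1) 2 0 2, m3 (-1) 1 1 2, .num 0, .num 0, .num 0, .num 0, .num 0, .num 0, .num 0],
    ![m3 (-1) 0 0 2, .num 0, .num 0, .num 0, .num 0, .num 0, .num 0, .num 0, .num 0]]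

/-- Block 1 of one output. -/
def b2G01I_1 : Fin 5 → Fin 5 → Ex :=
  ![![m3 (2) 1 0 1, m3 (1) 0 1 1, m3 (-1) 1 0 2, m3 (-1) 0 1 2, .num 0],
    ![m3 (1) 0 1 1, .num 0, .num 0, .num 0, .num 0],
    ![m3 (-1) 1 0 2, .num 0, .num 0, .num 0, .num 0],
    ![m3 (-1) 0 1 2, .num 0, .num 0, .num 0, .num 0],
    ![.num 0, .num 0, .num 0, .num 0, .num 0]]

/-- Block 2 of one output. -/
def b2G01I_2 : Fin 3 → Fin 3 → Ex :=
  ![![.num 0, .num 0, .num 0],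
    ![.num 0, .num 0, .num 0],
    ![.num 0, .num 0, .num 0]]

lemma b2G01I (X Y Z : ℝ) (p : Par) (S₂ S₃ S₄ : Matrix (Fin 5) (Fin 5) ℝ) :
    (jetI X Y Z p S₂ S₃ S₄).dd 0 1 ⬝ᵥ (jetI X Y Z p S₂ S₃ S₄).baseY (.h 0) =
      blocks X Y Z p b2G01I_0 b2G01I_1 b2G01I_2 (Z ^ 2) Z 0 / 2 := by
  norm_num [Jet.baseDiv, Jet.baseY, Jet.gradH, Jet.gradT, Jet.dd, Jet.du, Jet.dl, Jet.Z, C_jetI]
  simp [jetI, Par.mH, Par.mA, Par.mB, Par.x0, Par.x1, Par.x2, blocks, qf,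
    b2G01I_0, b2G01I_1, b2G01I_2, m3, PolyPSD.evalAt, Ex.eval, dotProduct, Matrix.mulVec, Matrix.trace,
    Matrix.mul_apply, Matrix.vecMulVec_apply, Matrix.vecMul, Matrix.one_apply, Fin.sum_univ_succ]
  all_goals ring

/-- Block 0 of one output. -/
def b2G11I_0 : Fin 9 → Fin 9 → Ex :=
  ![![.num 0, .num 0, .num 0, m3 (-1) 2 0 1, m3 (-2) 1 1 1, m3 (-1) 0 2 1, .num 0, .add (m3 (-2) 1 2 1) (m3 (-2) 3 0 1), m3 (-2) 1 0 1],
    ![.num 0, .num 0, .num 0, .num 0, m3 (-1) 2 0 1, m3 (-2) 1 1 1, m3 (-1) 0 1 1, .add (m3 (-2) 0 3 1) (m3 (-2) 2 1 1), m3 (-2) 0 1 1],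
    ![.num 0, .num 0, .num 0, .num 0, .num 0, .num 0, .num 0, .num 0, .num 0],
    ![m3 (-1) 2 0 1, .num 0, .num 0, .num 0, .num 0, .num 0, .num 0, .num 0, .num 0],
    ![m3 (-2) 1 1 1, m3 (-1) 2 0 1, .num 0, .num 0, .num 0, .num 0, .num 0, .num 0, .num 0],
    ![m3 (-1) 0 2 1, m3 (-2) 1 1 1, .num 0, .num 0, .num 0, .num 0, .num 0, .num 0, .num 0],
    ![.num 0, m3 (-1) 0 1 1, .num 0, .num 0, .num 0, .num 0, .num 0, .num 0, .num 0],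
    ![.add (m3 (-2) 1 2 1) (m3 (-2) 3 0 1), .add (m3 (-2) 0 3 1) (m3 (-2) 2 1 1), .num 0, .num 0, .num 0, .num 0, .num 0, .num 0, .num 0],
    ![m3 (-2) 1 0 1, m3 (-2) 0 1 1, .num 0, .num 0, .num 0, .num 0, .num 0, .num 0, .num 0]]

/-- Block 1 of one output. -/
def b2G11I_1 : Fin 5 → Fin 5 → Ex :=
  ![![.num 0, .num 0, m3 (-1) 2 0 1, m3 (-2) 1 1 1, m3 (-1) 0 1 1],
    ![.num 0, .num 0, .num 0, .num 0, .num 0],
    ![m3 (-1) 2 0 1, .num 0, .num 0, .num 0, .num 0],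
    ![m3 (-2) 1 1 1, .num 0, .num 0, .num 0, .num 0],
    ![m3 (-1) 0 1 1, .num 0, .num 0, .num 0, .num 0]]

/-- Block 2 of one output. -/
def b2G11I_2 : Fin 3 → Fin 3 → Ex :=
  ![![.num 0, .num 0, .num 0],
    ![.num 0, .num 0, .num 0],
    ![.num 0, .num 0, .num 0]]

lemma b2G11I (X Y Z : ℝ) (p : Par) (S₂ S₃ S₄ : Matrix (Fin 5) (Fin 5) ℝ) :
    (jetI X Y Z p S₂ S₃ S₄).dd 1 1 ⬝ᵥ (jetI X Y Z p S₂ S₃ S₄).baseY (.h 0) =
      blocks X Y Z p b2G11I_0 b2G11I_1 b2G11I_2 (Z ^ 2) Z 0 / 2 := by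
  norm_num [Jet.baseDiv, Jet.baseY, Jet.gradH, Jet.gradT, Jet.dd, Jet.du, Jet.dl, Jet.Z, C_jetI]
  simp [jetI, Par.mH, Par.mA, Par.mB, Par.x0, Par.x1, Par.x2, blocks, qf,
    b2G11I_0, b2G11I_1, b2G11I_2, m3, PolyPSD.evalAt, Ex.eval, dotProduct, Matrix.mulVec, Matrix.trace,
    Matrix.mul_apply, Matrix.vecMulVec_apply, Matrix.vecMul, Matrix.one_apply, Fin.sum_univ_succ]
  all_goals ring

end Vale.Agent.P252.General.Cert5
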