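import Vale.Agent.P252.Rigidity.General.Cert5.Jets

/-! Block forms of one basic field in one frame, generated and checked by `ring`. -/

namespace Vale.Agent.P252.General.Cert5

open Vale.Agent.P100T.PosCheck
open scoped Matrix

set_option linter.unusedSimpArgs false

/-- Block 0 of one output. -/
def b6DI_0 : Fin 9 → Fin 9 → Ex :=
  ![![.num 0, .num 0, .num 0, .num 0, .num 0, .num 0, .num 0, m3 (3) 2 0 0, .num 0],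
    ![.num 0, .num 0, .num 0, .num 0, .num 0, .num 0, .num 0, m3 (6) 1 1 0, .num 0],
    ![.num 0, .num 0, .num 0, .num 0, .num 0, .num 0, .num 0, m3 (3) 0 2 0, .num 0],
    ![.num 0, .num 0, .num 0, m3 (-8) 2 0 0, m3 (-8) 1 1 0, m3 (-2) 2 0 0, m3 (-2) 1 0 0, .add (m3 (2) 2 0 1) (m3 (-6) 3 0 0), .num 0],
    ![.num 0, .num 0, .num 0, m3 (-8) 1 1 0, .add (m3 (-8) 0 2 0) (m3 (-12) 2 0 0), m3 (-14) 1 1 0, m3 (-2) 0 1 0, .add (m3 (2) 1 1 1) (m3 (-18) 2 1 0), .num 0],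
    ![.num 0, .num 0, .num 0, m3 (-2) 2 0 0, m3 (-14) 1 1 0, .add (m3 (-12) 0 2 0) (m3 (-8) 2 0 0), m3 (-8) 1 0 0, .add (m3 (-18) 1 2 0) (m3 (2) 2 0 1), .num 0],
    ![.num 0, .num 0, .num 0, m3 (-2) 1 0 0, m3 (-2) 0 1 0, m3 (-8) 1 0 0, m3 (-8) 0 0 0, .add (m3 (-6) 0 2 0) (m3 (2) 1 0 1), .num 0],
    ![m3 (3) 2 0 0, m3 (6) 1 1 0, m3 (3) 0 2 0, .add (m3 (2) 2 0 1) (m3 (-6) 3 0 0), .add (m3 (2) 1 1 1) (m3 (-18) 2 1 0), .add (m3 (-18) 1 2 0) (m3 (2) 2 0 1), .add (m3 (-6) 0 2 0) (m3 (2) 1 0 1), m3 (-2) 2 0 2, m3 (-6) 1 0 1],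
    ![.num 0, .num 0, .num 0, .num 0, .num 0, .num 0, .num 0, m3 (-6) 1 0 1, .num 0]]

/-- Block 1 of one output. -/
def b6DI_1 : Fin 5 → Fin 5 → Ex :=
  ![![.num 0, .num 0, .num 0, .num 0, .num 0],
    ![.num 0, .num 0, .num 0, .num 0, .num 0],
    ![.num 0, .num 0, m3 (-12) 2 0 0, m3 (-12) 1 1 0, .num 0],
    ![.num 0, .num 0, m3 (-12) 1 1 0, .add (m3 (-12) 0 2 0) (m3 (-12) 2 0 0), m3 (-12) 1 0 0],
    ![.num 0, .num 0, .num 0, m3 (-12) 1 0 0, m3 (-12) 0 0 0]]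

/-- Block 2 of one output. -/
def b6DI_2 : Fin 3 → Fin 3 → Ex :=
  ![![.num 0, .num 0, .num 0],
    ![.num 0, m3 (-12) 2 0 0, m3 (-12) 1 0 0],
    ![.num 0, m3 (-12) 1 0 0, m3 (-12) 0 0 0]]

lemma b6DI (X Y Z : ℝ) (p : Par) (S₂ S₃ S₄ : Matrix (Fin 5) (Fin 5) ℝ) :
    (jetI X Y Z p S₂ S₃ S₄).baseDiv (.t 1 1) =
      blocks X Y Z p b6DI_0 b6DI_1 b6DI_2 (Z ^ 2) Z 0 / 6 := by
  norm_num [Jet.baseDiv, Jet.baseY, Jet.gradH, Jet.gradT, Jet.dd, Jet.du, Jet.dl, Jet.Z, C_jetI]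
  simp [jetI, Par.mH, Par.mA, Par.mB, Par.x0, Par.x1, Par.x2, blocks, qf,
    b6DI_0, b6DI_1, b6DI_2, m3, PolyPSD.evalAt, Ex.eval, dotProduct, Matrix.mulVec, Matrix.trace,
    Matrix.mul_apply, Matrix.vecMulVec_apply, Matrix.vecMul, Matrix.one_apply, Fin.sum_univ_succ]
  all_goals ring

/-- Block 0 of one output. -/
def b6VI_0 : Fin 9 → Fin 9 → Ex :=
  ![![.num 0, .num 0, .num 0, .num 0, .num 0, .num 0, .num 0, .num 0, .num 0],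
    ![.num 0, .num 0, .num 0, .num 0, .num 0, .num 0, .num 0, .num 0, .num 0],
    ![.num 0, .num 0, .num 0, .num 0, .num 0, .num 0, .num 0, .num 0, .num 0],
    ![.num 0, .num 0, .num 0, .num 0, .num 0, .num 0, .num 0, m3 (1) 3 0 0, .num 0],
    ![.num 0, .num 0, .num 0, .num 0, .num 0, .num 0, .num 0, m3 (3) 2 1 0, .num 0],
    ![.num 0, .num 0, .num 0, .num 0, .num 0, .num 0, .num 0, m3 (3) 1 2 0, .num 0],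
    ![.num 0, .num 0, .num 0, .num 0, .num 0, .num 0, .num 0, m3 (1) 0 2 0, .num 0],
    ![.num 0, .num 0, .num 0, m3 (1) 3 0 0, m3 (3) 2 1 0, m3 (3) 1 2 0, m3 (1) 0 2 0, .num 0, .num 0],
    ![.num 0, .num 0, .num 0, .num 0, .num 0, .num 0, .num 0, .num 0, .num 0]]

/-- Block 1 of one output. -/
def b6VI_1 : Fin 5 → Fin 5 → Ex :=
  ![![.num 0, .num 0, .num 0, .num 0, .num 0],
    ![.num 0, .num 0, .num 0, .num 0, .num 0],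
    ![.num 0, .num 0, .num 0, .num 0, .num 0],
    ![.num 0, .num 0, .num 0, .num 0, .num 0],
    ![.num 0, .num 0, .num 0, .num 0, .num 0]]

/-- Block 2 of one output. -/
def b6VI_2 : Fin 3 → Fin 3 → Ex :=
  ![![.num 0, .num 0, .num 0],
    ![.num 0, .num 0, .num 0],
    ![.num 0, .num 0, .num 0]]

lemma b6VI (X Y Z : ℝ) (p : Par) (S₂ S₃ S₄ : Matrix (Fin 5) (Fin 5) ℝ) :
    (jetI X Y Z p S₂ S₃ S₄).v ⬝ᵥ (jetI X Y Z p S₂ S₃ S₄).baseY (.t 1 1) =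
      blocks X Y Z p b6VI_0 b6VI_1 b6VI_2 (Z ^ 2) Z 0 / 2 := by
  norm_num [Jet.baseDiv, Jet.baseY, Jet.gradH, Jet.gradT, Jet.dd, Jet.du, Jet.dl, Jet.Z, C_jetI]
  simp [jetI, Par.mH, Par.mA, Par.mB, Par.x0, Par.x1, Par.x2, blocks, qf,
    b6VI_0, b6VI_1, b6VI_2, m3, PolyPSD.evalAt, Ex.eval, dotProduct, Matrix.mulVec, Matrix.trace,
    Matrix.mul_apply, Matrix.vecMulVec_apply, Matrix.vecMul, Matrix.one_apply, Fin.sum_univ_succ]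
  all_goals ring

/-- Block 0 of one output. -/
def b6TI_0 : Fin 9 → Fin 9 → Ex :=
  ![![.num 0, .num 0, .num 0, .num 0, .num 0, .num 0, .num 0, .num 0, .num 0],
    ![.num 0, .num 0, .num 0, .num 0, .num 0, .num 0, .num 0, .num 0, .num 0],
    ![.num 0, .num 0, .num 0, .num 0, .num 0, .num 0, .num 0, .num 0, .num 0],
    ![.num 0, .num 0, .num 0, .num 0, .num 0, .num 0, .num 0, m3 (1) 2 0 1, .num 0],
    ![.num 0, .num 0, .num 0, .num 0, .num 0, .num 0, .num 0, m3 (2) 1 1 1, .num 0],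
    ![.num 0, .num 0, .num 0, .num 0, .num 0, .num 0, .num 0, m3 (1) 0 2 1, .num 0],
    ![.num 0, .num 0, .num 0, .num 0, .num 0, .num 0, .num 0, .num 0, .num 0],
    ![.num 0, .num 0, .num 0, m3 (1) 2 0 1, m3 (2) 1 1 1, m3 (1) 0 2 1, .num 0, .num 0, .num 0],
    ![.num 0, .num 0, .num 0, .num 0, .num 0, .num 0, .num 0, .num 0, .num 0]]

/-- Block 1 of one output. -/
def b6TI_1 : Fin 5 → Fin 5 → Ex :=
  ![![.num 0, .num 0, .num 0, .num 0, .num 0],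
    ![.num 0, .num 0, .num 0, .num 0, .num 0],
    ![.num 0, .num 0, .num 0, .num 0, .num 0],
    ![.num 0, .num 0, .num 0, .num 0, .num 0],
    ![.num 0, .num 0, .num 0, .num 0, .num 0]]

/-- Block 2 of one output. -/
def b6TI_2 : Fin 3 → Fin 3 → Ex :=
  ![![.num 0, .num 0, .num 0],
    ![.num 0, .num 0, .num 0],
    ![.num 0, .num 0, .num 0]]

lemma b6TI (X Y Z : ℝ) (p : Par) (S₂ S₃ S₄ : Matrix (Fin 5) (Fin 5) ℝ) :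
    (jetI X Y Z p S₂ S₃ S₄).t ⬝ᵥ (jetI X Y Z p S₂ S₃ S₄).baseY (.t 1 1) =
      blocks X Y Z p b6TI_0 b6TI_1 b6TI_2 (Z ^ 2) Z 0 / 2 := by
  norm_num [Jet.baseDiv, Jet.baseY, Jet.gradH, Jet.gradT, Jet.dd, Jet.du, Jet.dl, Jet.Z, C_jetI]
  simp [jetI, Par.mH, Par.mA, Par.mB, Par.x0, Par.x1, Par.x2, blocks, qf,
    b6TI_0, b6TI_1, b6TI_2, m3, PolyPSD.evalAt, Ex.eval, dotProduct, Matrix.mulVec, Matrix.trace,
    Matrix.mul_apply, Matrix.vecMulVec_apply, Matrix.vecMul, Matrix.one_apply, Fin.sum_univ_succ]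
  all_goals ring

/-- Block 0 of one output. -/
def b6G00I_0 : Fin 9 → Fin 9 → Ex :=
  ![![.num 0, .num 0, .num 0, m3 (2) 2 0 1, m3 (4) 1 1 1, m3 (2) 0 2 1, .num 0, .num 0, .num 0],
    ![.num 0, .num 0, .num 0, .num 0, m3 (2) 2 0 1, m3 (4) 1 1 1, m3 (2) 0 1 1, .num 0, .num 0],
    ![.num 0, .num 0, .num 0, .num 0, .num 0, .num 0, .num 0, .num 0, .num 0],
    ![m3 (2) 2 0 1, .num 0, .num 0, m3 (-2) 2 0 2, m3 (-2) 1 1 2, m3 (-1) 0 2 2, .num 0, .num 0, .num 0],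
    ![m3 (4) 1 1 1, m3 (2) 2 0 1, .num 0, m3 (-2) 1 1 2, m3 (-2) 2 0 2, m3 (-2) 1 1 2, m3 (-1) 0 1 2, .num 0, .num 0],
    ![m3 (2) 0 2 1, m3 (4) 1 1 1, .num 0, m3 (-1) 0 2 2, m3 (-2) 1 1 2, .num 0, .num 0, .num 0, .num 0],
    ![.num 0, m3 (2) 0 1 1, .num 0, .num 0, m3 (-1) 0 1 2, .num 0, .num 0, .num 0, .num 0],
    ![.num 0, .num 0, .num 0, .num 0, .num 0, .num 0, .num 0, .num 0, .num 0],
    ![.num 0, .num 0, .num 0, .num 0, .num 0, .num 0, .num 0, .num 0, .num 0]]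

/-- Block 1 of one output. -/
def b6G00I_1 : Fin 5 → Fin 5 → Ex :=
  ![![.num 0, .num 0, m3 (2) 2 0 1, m3 (4) 1 1 1, m3 (2) 0 1 1],
    ![.num 0, .num 0, .num 0, .num 0, .num 0],
    ![m3 (2) 2 0 1, .num 0, m3 (-2) 2 0 2, m3 (-2) 1 1 2, m3 (-1) 0 1 2],
    ![m3 (4) 1 1 1, .num 0, m3 (-2) 1 1 2, .num 0, .num 0],
    ![m3 (2) 0 1 1, .num 0, m3 (-1) 0 1 2, .num 0, .num 0]]

/-- Block 2 of one output. -/
def b6G00I_2 : Fin 3 → Fin 3 → Ex :=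
  ![![.num 0, .num 0, .num 0],
    ![.num 0, .num 0, .num 0],
    ![.num 0, .num 0, .num 0]]

lemma b6G00I (X Y Z : ℝ) (p : Par) (S₂ S₃ S₄ : Matrix (Fin 5) (Fin 5) ℝ) :
    (jetI X Y Z p S₂ S₃ S₄).dd 0 0 ⬝ᵥ (jetI X Y Z p S₂ S₃ S₄).baseY (.t 1 1) =
      blocks X Y Z p b6G00I_0 b6G00I_1 b6G00I_2 (Z ^ 2) Z 0 / 2 := by
  norm_num [Jet.baseDiv, Jet.baseY, Jet.gradH, Jet.gradT, Jet.dd, Jet.du, Jet.dl, Jet.Z, C_jetI]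
  simp [jetI, Par.mH, Par.mA, Par.mB, Par.x0, Par.x1, Par.x2, blocks, qf,
    b6G00I_0, b6G00I_1, b6G00I_2, m3, PolyPSD.evalAt, Ex.eval, dotProduct, Matrix.mulVec, Matrix.trace,
    Matrix.mul_apply, Matrix.vecMulVec_apply, Matrix.vecMul, Matrix.one_apply, Fin.sum_univ_succ]
  all_goals ring

/-- Block 0 of one output. -/
def b6G01I_0 : Fin 9 → Fin 9 → Ex :=
  ![![.num 0, .num 0, .num 0, m3 (1) 3 0 0, m3 (2) 2 1 0, m3 (1) 1 2 0, .num 0, .num 0, .num 0],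
    ![.num 0, .num 0, .num 0, m3 (1) 2 1 0, .add (m3 (2) 1 2 0) (m3 (1) 3 0 0), .add (m3 (1) 0 3 0) (m3 (2) 2 1 0), m3 (1) 1 1 0, .num 0, .num 0],
    ![.num 0, .num 0, .num 0, .num 0, m3 (1) 2 1 0, m3 (2) 1 2 0, m3 (1) 0 2 0, .num 0, .num 0],
    ![m3 (1) 3 0 0, m3 (1) 2 1 0, .num 0, m3 (-2) 3 0 1, m3 (-3) 2 1 1, m3 (-1) 1 2 1, .num 0, m3 (-1) 4 0 1, m3 (-1) 2 0 1],
    ![m3 (2) 2 1 0, .add (m3 (2) 1 2 0) (m3 (1) 3 0 0), m3 (1) 2 1 0, m3 (-3) 2 1 1, .add (m3 (-4) 1 2 1) (m3 (-2) 3 0 1), .add (m3 (-1) 0 3 1) (m3 (-3) 2 1 1), m3 (-1) 1 1 1, m3 (-3) 3 1 1, m3 (-2) 1 1 1],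
    ![m3 (1) 1 2 0, .add (m3 (1) 0 3 0) (m3 (2) 2 1 0), m3 (2) 1 2 0, m3 (-1) 1 2 1, .add (m3 (-1) 0 3 1) (m3 (-3) 2 1 1), m3 (-4) 1 2 1, m3 (-1) 0 2 1, m3 (-3) 2 2 1, m3 (-1) 0 2 1],
    ![.num 0, m3 (1) 1 1 0, m3 (1) 0 2 0, .num 0, m3 (-1) 1 1 1, m3 (-1) 0 2 1, .num 0, m3 (-1) 1 2 1, .num 0],
    ![.num 0, .num 0, .num 0, m3 (-1) 4 0 1, m3 (-3) 3 1 1, m3 (-3) 2 2 1, m3 (-1) 1 2 1, .num 0, .num 0],
    ![.num 0, .num 0, .num 0, m3 (-1) 2 0 1, m3 (-2) 1 1 1, m3 (-1) 0 2 1, .num 0, .num 0, .num 0]]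

/-- Block 1 of one output. -/
def b6G01I_1 : Fin 5 → Fin 5 → Ex :=
  ![![.num 0, .num 0, m3 (1) 3 0 0, m3 (2) 2 1 0, m3 (1) 1 1 0],
    ![.num 0, .num 0, m3 (1) 2 1 0, m3 (2) 1 2 0, m3 (1) 0 2 0],
    ![m3 (1) 3 0 0, m3 (1) 2 1 0, m3 (-2) 3 0 1, m3 (-3) 2 1 1, m3 (-1) 1 1 1],
    ![m3 (2) 2 1 0, m3 (2) 1 2 0, m3 (-3) 2 1 1, m3 (-4) 1 2 1, m3 (-1) 0 2 1],
    ![m3 (1) 1 1 0, m3 (1) 0 2 0, m3 (-1) 1 1 1, m3 (-1) 0 2 1, .num 0]]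

/-- Block 2 of one output. -/
def b6G01I_2 : Fin 3 → Fin 3 → Ex :=
  ![![.num 0, .num 0, .num 0],
    ![.num 0, .num 0, .num 0],
    ![.num 0, .num 0, .num 0]]

lemma b6G01I (X Y Z : ℝ) (p : Par) (S₂ S₃ S₄ : Matrix (Fin 5) (Fin 5) ℝ) :
    (jetI X Y Z p S₂ S₃ S₄).dd 0 1 ⬝ᵥ (jetI X Y Z p S₂ S₃ S₄).baseY (.t 1 1) =
      blocks X Y Z p b6G01I_0 b6G01I_1 b6G01I_2 (Z ^ 2) Z 0 / 2 := by
  norm_num [Jet.baseDiv, Jet.baseY, Jet.gradH, Jet.gradT, Jet.dd, Jet.du, Jet.dl, Jet.Z, C_jetI]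
  simp [jetI, Par.mH, Par.mA, Par.mB, Par.x0, Par.x1, Par.x2, blocks, qf,
    b6G01I_0, b6G01I_1, b6G01I_2, m3, PolyPSD.evalAt, Ex.eval, dotProduct, Matrix.mulVec, Matrix.trace,
    Matrix.mul_apply, Matrix.vecMulVec_apply, Matrix.vecMul, Matrix.one_apply, Fin.sum_univ_succ]
  all_goals ring

/-- Block 0 of one output. -/
def b6G11I_0 : Fin 9 → Fin 9 → Ex :=
  ![![.num 0, .num 0, .num 0, .num 0, .num 0, .num 0, .num 0, .num 0, .num 0],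
    ![.num 0, .num 0, .num 0, .num 0, .num 0, .num 0, .num 0, .num 0, .num 0],
    ![.num 0, .num 0, .num 0, .num 0, .num 0, .num 0, .num 0, .num 0, .num 0],
    ![.num 0, .num 0, .num 0, m3 (-1) 4 0 0, m3 (-2) 3 1 0, m3 (-1) 2 2 0, .num 0, .add (m3 (-1) 3 2 0) (m3 (-1) 5 0 0), m3 (-1) 3 0 0],
    ![.num 0, .num 0, .num 0, m3 (-2) 3 1 0, .add (m3 (-4) 2 2 0) (m3 (-1) 4 0 0), .add (m3 (-2) 1 3 0) (m3 (-2) 3 1 0), m3 (-1) 2 1 0, .add (m3 (-3) 2 3 0) (m3 (-3) 4 1 0), m3 (-3) 2 1 0],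
    ![.num 0, .num 0, .num 0, m3 (-1) 2 2 0, .add (m3 (-2) 1 3 0) (m3 (-2) 3 1 0), .add (m3 (-1) 0 4 0) (m3 (-4) 2 2 0), m3 (-2) 1 2 0, .add (m3 (-3) 1 4 0) (m3 (-3) 3 2 0), m3 (-3) 1 2 0],
    ![.num 0, .num 0, .num 0, .num 0, m3 (-1) 2 1 0, m3 (-2) 1 2 0, m3 (-1) 0 2 0, .add (m3 (-1) 0 4 0) (m3 (-1) 2 2 0), m3 (-1) 0 2 0],
    ![.num 0, .num 0, .num 0, .add (m3 (-1) 3 2 0) (m3 (-1) 5 0 0), .add (m3 (-3) 2 3 0) (m3 (-3) 4 1 0), .add (m3 (-3) 1 4 0) (m3 (-3) 3 2 0), .add (m3 (-1) 0 4 0) (m3 (-1) 2 2 0), .num 0, .num 0],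
    ![.num 0, .num 0, .num 0, m3 (-1) 3 0 0, m3 (-3) 2 1 0, m3 (-3) 1 2 0, m3 (-1) 0 2 0, .num 0, .num 0]]

/-- Block 1 of one output. -/
def b6G11I_1 : Fin 5 → Fin 5 → Ex :=
  ![![.num 0, .num 0, .num 0, .num 0, .num 0],
    ![.num 0, .num 0, .num 0, .num 0, .num 0],
    ![.num 0, .num 0, m3 (-1) 4 0 0, m3 (-2) 3 1 0, m3 (-1) 2 1 0],
    ![.num 0, .num 0, m3 (-2) 3 1 0, m3 (-4) 2 2 0, m3 (-2) 1 2 0],
    ![.num 0, .num 0, m3 (-1) 2 1 0, m3 (-2) 1 2 0, m3 (-1) 0 2 0]]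

/-- Block 2 of one output. -/
def b6G11I_2 : Fin 3 → Fin 3 → Ex :=
  ![![.num 0, .num 0, .num 0],
    ![.num 0, .num 0, .num 0],
    ![.num 0, .num 0, .num 0]]

lemma b6G11I (X Y Z : ℝ) (p : Par) (S₂ S₃ S₄ : Matrix (Fin 5) (Fin 5) ℝ) :
    (jetI X Y Z p S₂ S₃ S₄).dd 1 1 ⬝ᵥ (jetI X Y Z p S₂ S₃ S₄).baseY (.t 1 1) =
      blocks X Y Z p b6G11I_0 b6G11I_1 b6G11I_2 (Z ^ 2) Z 0 / 1 := by
  norm_num [Jet.baseDiv, Jet.baseY, Jet.gradH, Jet.gradT, Jet.dd, Jet.du, Jet.dl, Jet.Z, C_jetI]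
  simp [jetI, Par.mH, Par.mA, Par.mB, Par.x0, Par.x1, Par.x2, blocks, qf,
    b6G11I_0, b6G11I_1, b6G11I_2, m3, PolyPSD.evalAt, Ex.eval, dotProduct, Matrix.mulVec, Matrix.trace,
    Matrix.mul_apply, Matrix.vecMulVec_apply, Matrix.vecMul, Matrix.one_apply, Fin.sum_univ_succ]
  all_goals ring

end Vale.Agent.P252.General.Cert5
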