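import Vale.Agent.P252.Rigidity.General.Cert5.Jets

/-! Block forms of one basic field in one frame, generated and checked by `ring`. -/

namespace Vale.Agent.P252.General.Cert5

open Vale.Agent.P100T.PosCheck
open scoped Matrix

set_option linter.unusedSimpArgs false

/-- Block 0 of one output. -/
def b8DI_0 : Fin 9 → Fin 9 → Ex :=
  ![![m3 (14) 2 0 0, m3 (14) 1 1 0, .num 0, .num 0, m3 (-7) 1 1 1, m3 (-7) 0 2 1, .num 0, .add (m3 (-14) 1 2 1) (m3 (-6) 2 0 2), m3 (-28) 1 0 1],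
    ![m3 (14) 1 1 0, .add (m3 (14) 0 2 0) (m3 (14) 2 0 0), m3 (14) 1 1 0, m3 (7) 1 1 1, m3 (7) 0 2 1, m3 (-7) 1 1 1, m3 (-7) 0 1 1, .add (m3 (-14) 0 3 1) (.add (m3 (-12) 1 1 2) (m3 (14) 2 1 1)), m3 (-28) 0 1 1],
    ![.num 0, m3 (14) 1 1 0, m3 (14) 0 2 0, .num 0, m3 (7) 1 1 1, m3 (7) 0 2 1, .num 0, .add (m3 (-6) 0 2 2) (m3 (14) 1 2 1), .num 0],
    ![.num 0, m3 (7) 1 1 1, .num 0, .num 0, .num 0, .num 0, .num 0, .num 0, .num 0],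
    ![m3 (-7) 1 1 1, m3 (7) 0 2 1, m3 (7) 1 1 1, .num 0, .num 0, .num 0, .num 0, .num 0, .num 0],
    ![m3 (-7) 0 2 1, m3 (-7) 1 1 1, m3 (7) 0 2 1, .num 0, .num 0, .num 0, .num 0, .num 0, .num 0],
    ![.num 0, m3 (-7) 0 1 1, .num 0, .num 0, .num 0, .num 0, .num 0, .num 0, .num 0],
    ![.add (m3 (-14) 1 2 1) (m3 (-6) 2 0 2), .add (m3 (-14) 0 3 1) (.add (m3 (-12) 1 1 2) (m3 (14) 2 1 1)), .add (m3 (-6) 0 2 2) (m3 (14) 1 2 1), .num 0, .num 0, .num 0, .num 0, .num 0, .num 0],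
    ![m3 (-28) 1 0 1, m3 (-28) 0 1 1, .num 0, .num 0, .num 0, .num 0, .num 0, .num 0, .num 0]]

/-- Block 1 of one output. -/
def b8DI_1 : Fin 5 → Fin 5 → Ex :=
  ![![m3 (14) 2 0 0, m3 (14) 1 1 0, .num 0, m3 (-7) 1 1 1, m3 (-7) 0 1 1],
    ![m3 (14) 1 1 0, m3 (14) 0 2 0, m3 (7) 1 1 1, m3 (7) 0 2 1, .num 0],
    ![.num 0, m3 (7) 1 1 1, .num 0, .num 0, .num 0],
    ![m3 (-7) 1 1 1, m3 (7) 0 2 1, .num 0, .num 0, .num 0],
    ![m3 (-7) 0 1 1, .num 0, .num 0, .num 0, .num 0]]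

/-- Block 2 of one output. -/
def b8DI_2 : Fin 3 → Fin 3 → Ex :=
  ![![.num 0, .num 0, .num 0],
    ![.num 0, .num 0, .num 0],
    ![.num 0, .num 0, .num 0]]

lemma b8DI (X Y Z : ℝ) (p : Par) (S₂ S₃ S₄ : Matrix (Fin 5) (Fin 5) ℝ) :
    (jetI X Y Z p S₂ S₃ S₄).baseDiv (.ah 1) =
      blocks X Y Z p b8DI_0 b8DI_1 b8DI_2 (Z ^ 2) Z 0 / 14 := by
  norm_num [Jet.baseDiv, Jet.baseY, Jet.gradH, Jet.gradT, Jet.dd, Jet.du, Jet.dl, Jet.Z, C_jetI]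
  simp [jetI, Par.mH, Par.mA, Par.mB, Par.x0, Par.x1, Par.x2, blocks, qf,
    b8DI_0, b8DI_1, b8DI_2, m3, PolyPSD.evalAt, Ex.eval, dotProduct, Matrix.mulVec, Matrix.trace,
    Matrix.mul_apply, Matrix.vecMulVec_apply, Matrix.vecMul, Matrix.one_apply, Fin.sum_univ_succ]
  all_goals ring

/-- Block 0 of one output. -/
def b8VI_0 : Fin 9 → Fin 9 → Ex :=
  ![![.num 0, .num 0, .num 0, .num 0, .num 0, .num 0, .num 0, m3 (1) 1 2 1, .num 0],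
    ![.num 0, .num 0, .num 0, .num 0, .num 0, .num 0, .num 0, .add (m3 (1) 0 3 1) (m3 (-1) 2 1 1), .num 0],
    ![.num 0, .num 0, .num 0, .num 0, .num 0, .num 0, .num 0, m3 (-1) 1 2 1, .num 0],
    ![.num 0, .num 0, .num 0, .num 0, .num 0, .num 0, .num 0, .num 0, .num 0],
    ![.num 0, .num 0, .num 0, .num 0, .num 0, .num 0, .num 0, .num 0, .num 0],
    ![.num 0, .num 0, .num 0, .num 0, .num 0, .num 0, .num 0, .num 0, .num 0],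
    ![.num 0, .num 0, .num 0, .num 0, .num 0, .num 0, .num 0, .num 0, .num 0],
    ![m3 (1) 1 2 1, .add (m3 (1) 0 3 1) (m3 (-1) 2 1 1), m3 (-1) 1 2 1, .num 0, .num 0, .num 0, .num 0, .num 0, .num 0],
    ![.num 0, .num 0, .num 0, .num 0, .num 0, .num 0, .num 0, .num 0, .num 0]]

/-- Block 1 of one output. -/
def b8VI_1 : Fin 5 → Fin 5 → Ex :=
  ![![.num 0, .num 0, .num 0, .num 0, .num 0],
    ![.num 0, .num 0, .num 0, .num 0, .num 0],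
    ![.num 0, .num 0, .num 0, .num 0, .num 0],
    ![.num 0, .num 0, .num 0, .num 0, .num 0],
    ![.num 0, .num 0, .num 0, .num 0, .num 0]]

/-- Block 2 of one output. -/
def b8VI_2 : Fin 3 → Fin 3 → Ex :=
  ![![.num 0, .num 0, .num 0],
    ![.num 0, .num 0, .num 0],
    ![.num 0, .num 0, .num 0]]

lemma b8VI (X Y Z : ℝ) (p : Par) (S₂ S₃ S₄ : Matrix (Fin 5) (Fin 5) ℝ) :
    (jetI X Y Z p S₂ S₃ S₄).v ⬝ᵥ (jetI X Y Z p S₂ S₃ S₄).baseY (.ah 1) =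
      blocks X Y Z p b8VI_0 b8VI_1 b8VI_2 (Z ^ 2) Z 0 / 2 := by
  norm_num [Jet.baseDiv, Jet.baseY, Jet.gradH, Jet.gradT, Jet.dd, Jet.du, Jet.dl, Jet.Z, C_jetI]
  simp [jetI, Par.mH, Par.mA, Par.mB, Par.x0, Par.x1, Par.x2, blocks, qf,
    b8VI_0, b8VI_1, b8VI_2, m3, PolyPSD.evalAt, Ex.eval, dotProduct, Matrix.mulVec, Matrix.trace,
    Matrix.mul_apply, Matrix.vecMulVec_apply, Matrix.vecMul, Matrix.one_apply, Fin.sum_univ_succ]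
  all_goals ring

/-- Block 0 of one output. -/
def b8TI_0 : Fin 9 → Fin 9 → Ex :=
  ![![.num 0, .num 0, .num 0, .num 0, .num 0, .num 0, .num 0, .num 0, .num 0],
    ![.num 0, .num 0, .num 0, .num 0, .num 0, .num 0, .num 0, m3 (-1) 1 1 2, .num 0],
    ![.num 0, .num 0, .num 0, .num 0, .num 0, .num 0, .num 0, m3 (-1) 0 2 2, .num 0],
    ![.num 0, .num 0, .num 0, .num 0, .num 0, .num 0, .num 0, .num 0, .num 0],
    ![.num 0, .num 0, .num 0, .num 0, .num 0, .num 0, .num 0, .num 0, .num 0],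
    ![.num 0, .num 0, .num 0, .num 0, .num 0, .num 0, .num 0, .num 0, .num 0],
    ![.num 0, .num 0, .num 0, .num 0, .num 0, .num 0, .num 0, .num 0, .num 0],
    ![.num 0, m3 (-1) 1 1 2, m3 (-1) 0 2 2, .num 0, .num 0, .num 0, .num 0, .num 0, .num 0],
    ![.num 0, .num 0, .num 0, .num 0, .num 0, .num 0, .num 0, .num 0, .num 0]]

/-- Block 1 of one output. -/
def b8TI_1 : Fin 5 → Fin 5 → Ex :=
  ![![.num 0, .num 0, .num 0, .num 0, .num 0],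
    ![.num 0, .num 0, .num 0, .num 0, .num 0],
    ![.num 0, .num 0, .num 0, .num 0, .num 0],
    ![.num 0, .num 0, .num 0, .num 0, .num 0],
    ![.num 0, .num 0, .num 0, .num 0, .num 0]]

/-- Block 2 of one output. -/
def b8TI_2 : Fin 3 → Fin 3 → Ex :=
  ![![.num 0, .num 0, .num 0],
    ![.num 0, .num 0, .num 0],
    ![.num 0, .num 0, .num 0]]

lemma b8TI (X Y Z : ℝ) (p : Par) (S₂ S₃ S₄ : Matrix (Fin 5) (Fin 5) ℝ) :
    (jetI X Y Z p S₂ S₃ S₄).t ⬝ᵥ (jetI X Y Z p S₂ S₃ S₄).baseY (.ah 1) =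
      blocks X Y Z p b8TI_0 b8TI_1 b8TI_2 (Z ^ 2) Z 0 / 2 := by
  norm_num [Jet.baseDiv, Jet.baseY, Jet.gradH, Jet.gradT, Jet.dd, Jet.du, Jet.dl, Jet.Z, C_jetI]
  simp [jetI, Par.mH, Par.mA, Par.mB, Par.x0, Par.x1, Par.x2, blocks, qf,
    b8TI_0, b8TI_1, b8TI_2, m3, PolyPSD.evalAt, Ex.eval, dotProduct, Matrix.mulVec, Matrix.trace,
    Matrix.mul_apply, Matrix.vecMulVec_apply, Matrix.vecMul, Matrix.one_apply, Fin.sum_univ_succ]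
  all_goals ring

/-- Block 0 of one output. -/
def b8G00I_0 : Fin 9 → Fin 9 → Ex :=
  ![![.num 0, .num 0, m3 (-2) 0 2 2, .num 0, m3 (-1) 1 1 3, .num 0, .num 0, .num 0, .num 0],
    ![.num 0, m3 (4) 0 2 2, .num 0, m3 (1) 1 1 3, m3 (-1) 0 2 3, .num 0, .num 0, .num 0, .num 0],
    ![m3 (-2) 0 2 2, .num 0, .num 0, m3 (1) 0 2 3, .num 0, .num 0, .num 0, .num 0, .num 0],
    ![.num 0, m3 (1) 1 1 3, m3 (1) 0 2 3, .num 0, .num 0, .num 0, .num 0, .num 0, .num 0],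
    ![m3 (-1) 1 1 3, m3 (-1) 0 2 3, .num 0, .num 0, .num 0, .num 0, .num 0, .num 0, .num 0],
    ![.num 0, .num 0, .num 0, .num 0, .num 0, .num 0, .num 0, .num 0, .num 0],
    ![.num 0, .num 0, .num 0, .num 0, .num 0, .num 0, .num 0, .num 0, .num 0],
    ![.num 0, .num 0, .num 0, .num 0, .num 0, .num 0, .num 0, .num 0, .num 0],
    ![.num 0, .num 0, .num 0, .num 0, .num 0, .num 0, .num 0, .num 0, .num 0]]

/-- Block 1 of one output. -/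
def b8G00I_1 : Fin 5 → Fin 5 → Ex :=
  ![![.num 0, .num 0, .num 0, .num 0, .num 0],
    ![.num 0, .num 0, .num 0, .num 0, .num 0],
    ![.num 0, .num 0, .num 0, .num 0, .num 0],
    ![.num 0, .num 0, .num 0, .num 0, .num 0],
    ![.num 0, .num 0, .num 0, .num 0, .num 0]]

/-- Block 2 of one output. -/
def b8G00I_2 : Fin 3 → Fin 3 → Ex :=
  ![![.num 0, .num 0, .num 0],
    ![.num 0, .num 0, .num 0],
    ![.num 0, .num 0, .num 0]]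

lemma b8G00I (X Y Z : ℝ) (p : Par) (S₂ S₃ S₄ : Matrix (Fin 5) (Fin 5) ℝ) :
    (jetI X Y Z p S₂ S₃ S₄).dd 0 0 ⬝ᵥ (jetI X Y Z p S₂ S₃ S₄).baseY (.ah 1) =
      blocks X Y Z p b8G00I_0 b8G00I_1 b8G00I_2 (Z ^ 2) Z 0 / 2 := by
  norm_num [Jet.baseDiv, Jet.baseY, Jet.gradH, Jet.gradT, Jet.dd, Jet.du, Jet.dl, Jet.Z, C_jetI]
  simp [jetI, Par.mH, Par.mA, Par.mB, Par.x0, Par.x1, Par.x2, blocks, qf,
    b8G00I_0, b8G00I_1, b8G00I_2, m3, PolyPSD.evalAt, Ex.eval, dotProduct, Matrix.mulVec, Matrix.trace,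
    Matrix.mul_apply, Matrix.vecMulVec_apply, Matrix.vecMul, Matrix.one_apply, Fin.sum_univ_succ]
  all_goals ring

/-- Block 0 of one output. -/
def b8G01I_0 : Fin 9 → Fin 9 → Ex :=
  ![![.num 0, .num 0, .num 0, .num 0, m3 (-1) 2 1 2, m3 (-1) 1 2 2, .num 0, m3 (-1) 2 2 2, .num 0],
    ![.num 0, .num 0, .num 0, m3 (1) 2 1 2, .num 0, m3 (-1) 0 3 2, .num 0, .add (m3 (-1) 1 3 2) (m3 (1) 3 1 2), m3 (1) 1 1 2],
    ![.num 0, .num 0, .num 0, m3 (1) 1 2 2, m3 (1) 0 3 2, .num 0, .num 0, m3 (1) 2 2 2, m3 (1) 0 2 2],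
    ![.num 0, m3 (1) 2 1 2, m3 (1) 1 2 2, .num 0, .num 0, .num 0, .num 0, .num 0, .num 0],
    ![m3 (-1) 2 1 2, .num 0, m3 (1) 0 3 2, .num 0, .num 0, .num 0, .num 0, .num 0, .num 0],
    ![m3 (-1) 1 2 2, m3 (-1) 0 3 2, .num 0, .num 0, .num 0, .num 0, .num 0, .num 0, .num 0],
    ![.num 0, .num 0, .num 0, .num 0, .num 0, .num 0, .num 0, .num 0, .num 0],
    ![m3 (-1) 2 2 2, .add (m3 (-1) 1 3 2) (m3 (1) 3 1 2), m3 (1) 2 2 2, .num 0, .num 0, .num 0, .num 0, .num 0, .num 0],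
    ![.num 0, m3 (1) 1 1 2, m3 (1) 0 2 2, .num 0, .num 0, .num 0, .num 0, .num 0, .num 0]]

/-- Block 1 of one output. -/
def b8G01I_1 : Fin 5 → Fin 5 → Ex :=
  ![![.num 0, .num 0, .num 0, .num 0, .num 0],
    ![.num 0, .num 0, .num 0, .num 0, .num 0],
    ![.num 0, .num 0, .num 0, .num 0, .num 0],
    ![.num 0, .num 0, .num 0, .num 0, .num 0],
    ![.num 0, .num 0, .num 0, .num 0, .num 0]]

/-- Block 2 of one output. -/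
def b8G01I_2 : Fin 3 → Fin 3 → Ex :=
  ![![.num 0, .num 0, .num 0],
    ![.num 0, .num 0, .num 0],
    ![.num 0, .num 0, .num 0]]

lemma b8G01I (X Y Z : ℝ) (p : Par) (S₂ S₃ S₄ : Matrix (Fin 5) (Fin 5) ℝ) :
    (jetI X Y Z p S₂ S₃ S₄).dd 0 1 ⬝ᵥ (jetI X Y Z p S₂ S₃ S₄).baseY (.ah 1) =
      blocks X Y Z p b8G01I_0 b8G01I_1 b8G01I_2 (Z ^ 2) Z 0 / 2 := by
  norm_num [Jet.baseDiv, Jet.baseY, Jet.gradH, Jet.gradT, Jet.dd, Jet.du, Jet.dl, Jet.Z, C_jetI]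
  simp [jetI, Par.mH, Par.mA, Par.mB, Par.x0, Par.x1, Par.x2, blocks, qf,
    b8G01I_0, b8G01I_1, b8G01I_2, m3, PolyPSD.evalAt, Ex.eval, dotProduct, Matrix.mulVec, Matrix.trace,
    Matrix.mul_apply, Matrix.vecMulVec_apply, Matrix.vecMul, Matrix.one_apply, Fin.sum_univ_succ]
  all_goals ring

/-- Block 0 of one output. -/
def b8G11I_0 : Fin 9 → Fin 9 → Ex :=
  ![![.num 0, .num 0, .num 0, .num 0, m3 (-1) 3 1 1, m3 (-2) 2 2 1, m3 (-1) 1 2 1, .add (m3 (-2) 1 4 1) (m3 (-2) 3 2 1), m3 (-2) 1 2 1],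
    ![.num 0, .num 0, .num 0, m3 (1) 3 1 1, m3 (1) 2 2 1, m3 (-1) 1 3 1, m3 (-1) 0 3 1, .add (m3 (-2) 0 5 1) (m3 (2) 4 1 1), .add (m3 (-2) 0 3 1) (m3 (2) 2 1 1)],
    ![.num 0, .num 0, .num 0, m3 (1) 2 2 1, m3 (2) 1 3 1, m3 (1) 0 4 1, .num 0, .add (m3 (2) 1 4 1) (m3 (2) 3 2 1), m3 (2) 1 2 1],
    ![.num 0, m3 (1) 3 1 1, m3 (1) 2 2 1, .num 0, .num 0, .num 0, .num 0, .num 0, .num 0],
    ![m3 (-1) 3 1 1, m3 (1) 2 2 1, m3 (2) 1 3 1, .num 0, .num 0, .num 0, .num 0, .num 0, .num 0],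
    ![m3 (-2) 2 2 1, m3 (-1) 1 3 1, m3 (1) 0 4 1, .num 0, .num 0, .num 0, .num 0, .num 0, .num 0],
    ![m3 (-1) 1 2 1, m3 (-1) 0 3 1, .num 0, .num 0, .num 0, .num 0, .num 0, .num 0, .num 0],
    ![.add (m3 (-2) 1 4 1) (m3 (-2) 3 2 1), .add (m3 (-2) 0 5 1) (m3 (2) 4 1 1), .add (m3 (2) 1 4 1) (m3 (2) 3 2 1), .num 0, .num 0, .num 0, .num 0, .num 0, .num 0],
    ![m3 (-2) 1 2 1, .add (m3 (-2) 0 3 1) (m3 (2) 2 1 1), m3 (2) 1 2 1, .num 0, .num 0, .num 0, .num 0, .num 0, .num 0]]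

/-- Block 1 of one output. -/
def b8G11I_1 : Fin 5 → Fin 5 → Ex :=
  ![![.num 0, .num 0, .num 0, .num 0, .num 0],
    ![.num 0, .num 0, .num 0, .num 0, .num 0],
    ![.num 0, .num 0, .num 0, .num 0, .num 0],
    ![.num 0, .num 0, .num 0, .num 0, .num 0],
    ![.num 0, .num 0, .num 0, .num 0, .num 0]]

/-- Block 2 of one output. -/
def b8G11I_2 : Fin 3 → Fin 3 → Ex :=
  ![![.num 0, .num 0, .num 0],
    ![.num 0, .num 0, .num 0],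
    ![.num 0, .num 0, .num 0]]

lemma b8G11I (X Y Z : ℝ) (p : Par) (S₂ S₃ S₄ : Matrix (Fin 5) (Fin 5) ℝ) :
    (jetI X Y Z p S₂ S₃ S₄).dd 1 1 ⬝ᵥ (jetI X Y Z p S₂ S₃ S₄).baseY (.ah 1) =
      blocks X Y Z p b8G11I_0 b8G11I_1 b8G11I_2 (Z ^ 2) Z 0 / 2 := by
  norm_num [Jet.baseDiv, Jet.baseY, Jet.gradH, Jet.gradT, Jet.dd, Jet.du, Jet.dl, Jet.Z, C_jetI]
  simp [jetI, Par.mH, Par.mA, Par.mB, Par.x0, Par.x1, Par.x2, blocks, qf,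
    b8G11I_0, b8G11I_1, b8G11I_2, m3, PolyPSD.evalAt, Ex.eval, dotProduct, Matrix.mulVec, Matrix.trace,
    Matrix.mul_apply, Matrix.vecMulVec_apply, Matrix.vecMul, Matrix.one_apply, Fin.sum_univ_succ]
  all_goals ring

end Vale.Agent.P252.General.Cert5
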