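import Vale.Agent.P252.Rigidity.General.Cert5.Jets

/-! Block forms of one basic field in one frame, generated and checked by `ring`. -/

namespace Vale.Agent.P252.General.Cert5

open Vale.Agent.P100T.PosCheck
open scoped Matrix

set_option linter.unusedSimpArgs false

/-- Block 0 of one output. -/
def b10DII_0 : Fin 9 → Fin 9 → Ex :=
  ![![.num 0, .num 0, .num 0, m3 (7) 1 0 2, m3 (14) 0 1 2, .num 0, .num 0, .num 0, .num 0],
    ![.num 0, .num 0, .num 0, m3 (-7) 0 1 2, m3 (7) 1 0 2, m3 (14) 0 1 2, .num 0, .num 0, .num 0],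
    ![.num 0, .num 0, .num 0, .num 0, m3 (-7) 0 1 2, .num 0, .num 0, .num 0, .num 0],
    ![m3 (7) 1 0 2, m3 (-7) 0 1 2, .num 0, .num 0, .num 0, .num 0, .num 0, .add (m3 (-6) 1 2 2) (m3 (-6) 3 0 2), m3 (-28) 2 0 1],
    ![m3 (14) 0 1 2, m3 (7) 1 0 2, m3 (-7) 0 1 2, .num 0, .num 0, .num 0, .num 0, .add (m3 (-6) 0 3 2) (.add (m3 (-14) 1 1 3) (m3 (-6) 2 1 2)), m3 (-56) 1 1 1],
    ![.num 0, m3 (14) 0 1 2, .num 0, .num 0, .num 0, .num 0, .num 0, m3 (-14) 0 2 3, m3 (-28) 0 2 1],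
    ![.num 0, .num 0, .num 0, .num 0, .num 0, .num 0, .num 0, .num 0, .num 0],
    ![.num 0, .num 0, .num 0, .add (m3 (-6) 1 2 2) (m3 (-6) 3 0 2), .add (m3 (-6) 0 3 2) (.add (m3 (-14) 1 1 3) (m3 (-6) 2 1 2)), m3 (-14) 0 2 3, .num 0, .num 0, .num 0],
    ![.num 0, .num 0, .num 0, m3 (-28) 2 0 1, m3 (-56) 1 1 1, m3 (-28) 0 2 1, .num 0, .num 0, .num 0]]

/-- Block 1 of one output. -/
def b10DII_1 : Fin 5 → Fin 5 → Ex :=
  ![![.num 0, .num 0, m3 (7) 1 0 2, m3 (14) 0 1 2, .num 0],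
    ![.num 0, .num 0, m3 (-7) 0 1 2, .num 0, .num 0],
    ![m3 (7) 1 0 2, m3 (-7) 0 1 2, .num 0, .num 0, .num 0],
    ![m3 (14) 0 1 2, .num 0, .num 0, .num 0, .num 0],
    ![.num 0, .num 0, .num 0, .num 0, .num 0]]

/-- Block 2 of one output. -/
def b10DII_2 : Fin 3 → Fin 3 → Ex :=
  ![![.num 0, .num 0, .num 0],
    ![.num 0, .num 0, .num 0],
    ![.num 0, .num 0, .num 0]]

lemma b10DII (X Y Z : ℝ) (p : Par) (S₂ S₃ S₄ : Matrix (Fin 5) (Fin 5) ℝ) :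
    (jetII X Y Z p S₂ S₃ S₄).baseDiv (.atb 0 1) =
      blocks X Y Z p b10DII_0 b10DII_1 b10DII_2 (X ^ 2 + Y ^ 2) X Y / 14 := by
  norm_num [Jet.baseDiv, Jet.baseY, Jet.gradH, Jet.gradT, Jet.dd, Jet.du, Jet.dl, Jet.Z, C_jetII]
  simp [jetII, Par.mH, Par.mA, Par.mB, Par.x0, Par.x1, Par.x2, blocks, qf,
    b10DII_0, b10DII_1, b10DII_2, m3, PolyPSD.evalAt, Ex.eval, dotProduct, Matrix.mulVec, Matrix.trace,
    Matrix.mul_apply, Matrix.vecMulVec_apply, Matrix.vecMul, Matrix.one_apply, Fin.sum_univ_succ]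
  all_goals ring

/-- Block 0 of one output. -/
def b10VII_0 : Fin 9 → Fin 9 → Ex :=
  ![![.num 0, .num 0, .num 0, .num 0, .num 0, .num 0, .num 0, .num 0, .num 0],
    ![.num 0, .num 0, .num 0, .num 0, .num 0, .num 0, .num 0, .num 0, .num 0],
    ![.num 0, .num 0, .num 0, .num 0, .num 0, .num 0, .num 0, .num 0, .num 0],
    ![.num 0, .num 0, .num 0, .num 0, .num 0, .num 0, .num 0, .num 0, .num 0],
    ![.num 0, .num 0, .num 0, .num 0, .num 0, .num 0, .num 0, m3 (1) 1 1 3, .num 0],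
    ![.num 0, .num 0, .num 0, .num 0, .num 0, .num 0, .num 0, m3 (1) 0 2 3, .num 0],
    ![.num 0, .num 0, .num 0, .num 0, .num 0, .num 0, .num 0, .num 0, .num 0],
    ![.num 0, .num 0, .num 0, .num 0, m3 (1) 1 1 3, m3 (1) 0 2 3, .num 0, .num 0, .num 0],
    ![.num 0, .num 0, .num 0, .num 0, .num 0, .num 0, .num 0, .num 0, .num 0]]

/-- Block 1 of one output. -/
def b10VII_1 : Fin 5 → Fin 5 → Ex :=
  ![![.num 0, .num 0, .num 0, .num 0, .num 0],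
    ![.num 0, .num 0, .num 0, .num 0, .num 0],
    ![.num 0, .num 0, .num 0, .num 0, .num 0],
    ![.num 0, .num 0, .num 0, .num 0, .num 0],
    ![.num 0, .num 0, .num 0, .num 0, .num 0]]

/-- Block 2 of one output. -/
def b10VII_2 : Fin 3 → Fin 3 → Ex :=
  ![![.num 0, .num 0, .num 0],
    ![.num 0, .num 0, .num 0],
    ![.num 0, .num 0, .num 0]]

lemma b10VII (X Y Z : ℝ) (p : Par) (S₂ S₃ S₄ : Matrix (Fin 5) (Fin 5) ℝ) :
    (jetII X Y Z p S₂ S₃ S₄).v ⬝ᵥ (jetII X Y Z p S₂ S₃ S₄).baseY (.atb 0 1) =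
      blocks X Y Z p b10VII_0 b10VII_1 b10VII_2 (X ^ 2 + Y ^ 2) X Y / 2 := by
  norm_num [Jet.baseDiv, Jet.baseY, Jet.gradH, Jet.gradT, Jet.dd, Jet.du, Jet.dl, Jet.Z, C_jetII]
  simp [jetII, Par.mH, Par.mA, Par.mB, Par.x0, Par.x1, Par.x2, blocks, qf,
    b10VII_0, b10VII_1, b10VII_2, m3, PolyPSD.evalAt, Ex.eval, dotProduct, Matrix.mulVec, Matrix.trace,
    Matrix.mul_apply, Matrix.vecMulVec_apply, Matrix.vecMul, Matrix.one_apply, Fin.sum_univ_succ]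
  all_goals ring

/-- Block 0 of one output. -/
def b10TII_0 : Fin 9 → Fin 9 → Ex :=
  ![![.num 0, .num 0, .num 0, .num 0, .num 0, .num 0, .num 0, .num 0, .num 0],
    ![.num 0, .num 0, .num 0, .num 0, .num 0, .num 0, .num 0, .num 0, .num 0],
    ![.num 0, .num 0, .num 0, .num 0, .num 0, .num 0, .num 0, .num 0, .num 0],
    ![.num 0, .num 0, .num 0, .num 0, .num 0, .num 0, .num 0, m3 (-1) 1 2 2, .num 0],
    ![.num 0, .num 0, .num 0, .num 0, .num 0, .num 0, .num 0, .add (m3 (-1) 0 3 2) (m3 (1) 2 1 2), .num 0],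
    ![.num 0, .num 0, .num 0, .num 0, .num 0, .num 0, .num 0, m3 (1) 1 2 2, .num 0],
    ![.num 0, .num 0, .num 0, .num 0, .num 0, .num 0, .num 0, .num 0, .num 0],
    ![.num 0, .num 0, .num 0, m3 (-1) 1 2 2, .add (m3 (-1) 0 3 2) (m3 (1) 2 1 2), m3 (1) 1 2 2, .num 0, .num 0, .num 0],
    ![.num 0, .num 0, .num 0, .num 0, .num 0, .num 0, .num 0, .num 0, .num 0]]

/-- Block 1 of one output. -/
def b10TII_1 : Fin 5 → Fin 5 → Ex :=
  ![![.num 0, .num 0, .num 0, .num 0, .num 0],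
    ![.num 0, .num 0, .num 0, .num 0, .num 0],
    ![.num 0, .num 0, .num 0, .num 0, .num 0],
    ![.num 0, .num 0, .num 0, .num 0, .num 0],
    ![.num 0, .num 0, .num 0, .num 0, .num 0]]

/-- Block 2 of one output. -/
def b10TII_2 : Fin 3 → Fin 3 → Ex :=
  ![![.num 0, .num 0, .num 0],
    ![.num 0, .num 0, .num 0],
    ![.num 0, .num 0, .num 0]]

lemma b10TII (X Y Z : ℝ) (p : Par) (S₂ S₃ S₄ : Matrix (Fin 5) (Fin 5) ℝ) :
    (jetII X Y Z p S₂ S₃ S₄).t ⬝ᵥ (jetII X Y Z p S₂ S₃ S₄).baseY (.atb 0 1) =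
      blocks X Y Z p b10TII_0 b10TII_1 b10TII_2 (X ^ 2 + Y ^ 2) X Y / 2 := by
  norm_num [Jet.baseDiv, Jet.baseY, Jet.gradH, Jet.gradT, Jet.dd, Jet.du, Jet.dl, Jet.Z, C_jetII]
  simp [jetII, Par.mH, Par.mA, Par.mB, Par.x0, Par.x1, Par.x2, blocks, qf,
    b10TII_0, b10TII_1, b10TII_2, m3, PolyPSD.evalAt, Ex.eval, dotProduct, Matrix.mulVec, Matrix.trace,
    Matrix.mul_apply, Matrix.vecMulVec_apply, Matrix.vecMul, Matrix.one_apply, Fin.sum_univ_succ]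
  all_goals ring

/-- Block 0 of one output. -/
def b10G00II_0 : Fin 9 → Fin 9 → Ex :=
  ![![.num 0, .num 0, .num 0, .num 0, m3 (2) 2 1 2, m3 (2) 1 2 2, .num 0, .num 0, .num 0],
    ![.num 0, .num 0, .num 0, m3 (-2) 2 1 2, .num 0, m3 (2) 0 3 2, .num 0, .num 0, .num 0],
    ![.num 0, .num 0, .num 0, m3 (-2) 1 2 2, m3 (-2) 0 3 2, .num 0, .num 0, .num 0, .num 0],
    ![.num 0, m3 (-2) 2 1 2, m3 (-2) 1 2 2, .num 0, .num 0, m3 (1) 2 2 2, m3 (1) 1 2 2, .num 0, .num 0],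
    ![m3 (2) 2 1 2, .num 0, m3 (-2) 0 3 2, .num 0, m3 (-2) 2 2 2, m3 (-1) 1 3 2, m3 (1) 0 3 2, .num 0, .num 0],
    ![m3 (2) 1 2 2, m3 (2) 0 3 2, .num 0, m3 (1) 2 2 2, m3 (-1) 1 3 2, m3 (-2) 0 4 2, .num 0, .num 0, .num 0],
    ![.num 0, .num 0, .num 0, m3 (1) 1 2 2, m3 (1) 0 3 2, .num 0, .num 0, .num 0, .num 0],
    ![.num 0, .num 0, .num 0, .num 0, .num 0, .num 0, .num 0, .num 0, .num 0],
    ![.num 0, .num 0, .num 0, .num 0, .num 0, .num 0, .num 0, .num 0, .num 0]]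

/-- Block 1 of one output. -/
def b10G00II_1 : Fin 5 → Fin 5 → Ex :=
  ![![.num 0, .num 0, .num 0, .num 0, .num 0],
    ![.num 0, .num 0, .num 0, .num 0, .num 0],
    ![.num 0, .num 0, .num 0, .num 0, .num 0],
    ![.num 0, .num 0, .num 0, .num 0, .num 0],
    ![.num 0, .num 0, .num 0, .num 0, .num 0]]

/-- Block 2 of one output. -/
def b10G00II_2 : Fin 3 → Fin 3 → Ex :=
  ![![.num 0, .num 0, .num 0],
    ![.num 0, .num 0, .num 0],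
    ![.num 0, .num 0, .num 0]]

lemma b10G00II (X Y Z : ℝ) (p : Par) (S₂ S₃ S₄ : Matrix (Fin 5) (Fin 5) ℝ) :
    (jetII X Y Z p S₂ S₃ S₄).dd 0 0 ⬝ᵥ (jetII X Y Z p S₂ S₃ S₄).baseY (.atb 0 1) =
      blocks X Y Z p b10G00II_0 b10G00II_1 b10G00II_2 (X ^ 2 + Y ^ 2) X Y / 2 := by
  norm_num [Jet.baseDiv, Jet.baseY, Jet.gradH, Jet.gradT, Jet.dd, Jet.du, Jet.dl, Jet.Z, C_jetII]
  simp [jetII, Par.mH, Par.mA, Par.mB, Par.x0, Par.x1, Par.x2, blocks, qf,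
    b10G00II_0, b10G00II_1, b10G00II_2, m3, PolyPSD.evalAt, Ex.eval, dotProduct, Matrix.mulVec, Matrix.trace,
    Matrix.mul_apply, Matrix.vecMulVec_apply, Matrix.vecMul, Matrix.one_apply, Fin.sum_univ_succ]
  all_goals ring

/-- Block 0 of one output. -/
def b10G01II_0 : Fin 9 → Fin 9 → Ex :=
  ![![.num 0, .num 0, .num 0, .num 0, m3 (1) 1 1 3, m3 (1) 0 2 3, .num 0, .num 0, .num 0],
    ![.num 0, .num 0, .num 0, m3 (-1) 1 1 3, m3 (-1) 0 2 3, .num 0, .num 0, .num 0, .num 0],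
    ![.num 0, .num 0, .num 0, .num 0, .num 0, .num 0, .num 0, .num 0, .num 0],
    ![.num 0, m3 (-1) 1 1 3, .num 0, .num 0, .num 0, .num 0, .num 0, .num 0, m3 (1) 1 2 2],
    ![m3 (1) 1 1 3, m3 (-1) 0 2 3, .num 0, .num 0, .num 0, .num 0, .num 0, m3 (-1) 2 1 4, .add (m3 (1) 0 3 2) (m3 (-1) 2 1 2)],
    ![m3 (1) 0 2 3, .num 0, .num 0, .num 0, .num 0, .num 0, .num 0, m3 (-1) 1 2 4, m3 (-1) 1 2 2],
    ![.num 0, .num 0, .num 0, .num 0, .num 0, .num 0, .num 0, .num 0, .num 0],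
    ![.num 0, .num 0, .num 0, .num 0, m3 (-1) 2 1 4, m3 (-1) 1 2 4, .num 0, .num 0, .num 0],
    ![.num 0, .num 0, .num 0, m3 (1) 1 2 2, .add (m3 (1) 0 3 2) (m3 (-1) 2 1 2), m3 (-1) 1 2 2, .num 0, .num 0, .num 0]]

/-- Block 1 of one output. -/
def b10G01II_1 : Fin 5 → Fin 5 → Ex :=
  ![![.num 0, .num 0, .num 0, .num 0, .num 0],
    ![.num 0, .num 0, .num 0, .num 0, .num 0],
    ![.num 0, .num 0, .num 0, .num 0, .num 0],
    ![.num 0, .num 0, .num 0, .num 0, .num 0],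
    ![.num 0, .num 0, .num 0, .num 0, .num 0]]

/-- Block 2 of one output. -/
def b10G01II_2 : Fin 3 → Fin 3 → Ex :=
  ![![.num 0, .num 0, .num 0],
    ![.num 0, .num 0, .num 0],
    ![.num 0, .num 0, .num 0]]

lemma b10G01II (X Y Z : ℝ) (p : Par) (S₂ S₃ S₄ : Matrix (Fin 5) (Fin 5) ℝ) :
    (jetII X Y Z p S₂ S₃ S₄).dd 0 1 ⬝ᵥ (jetII X Y Z p S₂ S₃ S₄).baseY (.atb 0 1) =
      blocks X Y Z p b10G01II_0 b10G01II_1 b10G01II_2 (X ^ 2 + Y ^ 2) X Y / 2 := by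
  norm_num [Jet.baseDiv, Jet.baseY, Jet.gradH, Jet.gradT, Jet.dd, Jet.du, Jet.dl, Jet.Z, C_jetII]
  simp [jetII, Par.mH, Par.mA, Par.mB, Par.x0, Par.x1, Par.x2, blocks, qf,
    b10G01II_0, b10G01II_1, b10G01II_2, m3, PolyPSD.evalAt, Ex.eval, dotProduct, Matrix.mulVec, Matrix.trace,
    Matrix.mul_apply, Matrix.vecMulVec_apply, Matrix.vecMul, Matrix.one_apply, Fin.sum_univ_succ]
  all_goals ring

/-- Block 0 of one output. -/
def b10G11II_0 : Fin 9 → Fin 9 → Ex :=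
  ![![.num 0, .num 0, .num 0, .num 0, .num 0, .num 0, .num 0, .num 0, .num 0],
    ![.num 0, .num 0, .num 0, .num 0, .num 0, .num 0, .num 0, .num 0, .num 0],
    ![.num 0, .num 0, .num 0, .num 0, .num 0, .num 0, .num 0, .num 0, .num 0],
    ![.num 0, .num 0, .num 0, .num 0, .num 0, m3 (-1) 0 2 4, .num 0, .num 0, .num 0],
    ![.num 0, .num 0, .num 0, .num 0, m3 (2) 0 2 4, .num 0, .num 0, m3 (-2) 1 1 5, m3 (-2) 1 1 3],
    ![.num 0, .num 0, .num 0, m3 (-1) 0 2 4, .num 0, .num 0, .num 0, m3 (-2) 0 2 5, m3 (-2) 0 2 3],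
    ![.num 0, .num 0, .num 0, .num 0, .num 0, .num 0, .num 0, .num 0, .num 0],
    ![.num 0, .num 0, .num 0, .num 0, m3 (-2) 1 1 5, m3 (-2) 0 2 5, .num 0, .num 0, .num 0],
    ![.num 0, .num 0, .num 0, .num 0, m3 (-2) 1 1 3, m3 (-2) 0 2 3, .num 0, .num 0, .num 0]]

/-- Block 1 of one output. -/
def b10G11II_1 : Fin 5 → Fin 5 → Ex :=
  ![![.num 0, .num 0, .num 0, .num 0, .num 0],
    ![.num 0, .num 0, .num 0, .num 0, .num 0],
    ![.num 0, .num 0, .num 0, .num 0, .num 0],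
    ![.num 0, .num 0, .num 0, .num 0, .num 0],
    ![.num 0, .num 0, .num 0, .num 0, .num 0]]

/-- Block 2 of one output. -/
def b10G11II_2 : Fin 3 → Fin 3 → Ex :=
  ![![.num 0, .num 0, .num 0],
    ![.num 0, .num 0, .num 0],
    ![.num 0, .num 0, .num 0]]

lemma b10G11II (X Y Z : ℝ) (p : Par) (S₂ S₃ S₄ : Matrix (Fin 5) (Fin 5) ℝ) :
    (jetII X Y Z p S₂ S₃ S₄).dd 1 1 ⬝ᵥ (jetII X Y Z p S₂ S₃ S₄).baseY (.atb 0 1) =
      blocks X Y Z p b10G11II_0 b10G11II_1 b10G11II_2 (X ^ 2 + Y ^ 2) X Y / 2 := by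
  norm_num [Jet.baseDiv, Jet.baseY, Jet.gradH, Jet.gradT, Jet.dd, Jet.du, Jet.dl, Jet.Z, C_jetII]
  simp [jetII, Par.mH, Par.mA, Par.mB, Par.x0, Par.x1, Par.x2, blocks, qf,
    b10G11II_0, b10G11II_1, b10G11II_2, m3, PolyPSD.evalAt, Ex.eval, dotProduct, Matrix.mulVec, Matrix.trace,
    Matrix.mul_apply, Matrix.vecMulVec_apply, Matrix.vecMul, Matrix.one_apply, Fin.sum_univ_succ]
  all_goals ring

end Vale.Agent.P252.General.Cert5
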