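import Vale.Agent.P252.Rigidity.General.Cert5.Jets

/-! Block forms of one basic field in one frame, generated and checked by `ring`. -/

namespace Vale.Agent.P252.General.Cert5

open Vale.Agent.P100T.PosCheck
open scoped Matrix

set_option linter.unusedSimpArgs false

/-- Block 0 of one output. -/
def b5DII_0 : Fin 9 → Fin 9 → Ex :=
  ![![.num 0, .num 0, .num 0, m3 (28) 0 0 1, .num 0, m3 (7) 0 0 1, .num 0, m3 (14) 1 0 1, .num 0],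
    ![.num 0, .num 0, .num 0, .num 0, m3 (42) 0 0 1, .num 0, .num 0, m3 (21) 0 1 1, .num 0],
    ![.num 0, .num 0, .num 0, m3 (7) 0 0 1, .num 0, m3 (28) 0 0 1, .num 0, m3 (-7) 1 0 1, .num 0],
    ![m3 (28) 0 0 1, .num 0, m3 (7) 0 0 1, m3 (-56) 1 0 1, m3 (-28) 0 1 1, m3 (-14) 1 0 1, m3 (-7) 0 0 1, .add (m3 (1) 0 2 1) (.add (m3 (-21) 1 0 2) (m3 (8) 2 0 1)), .num 0],
    ![.num 0, m3 (42) 0 0 1, .num 0, m3 (-28) 0 1 1, m3 (-84) 1 0 1, m3 (-49) 0 1 1, .num 0, .add (m3 (-21) 0 1 2) (m3 (7) 1 1 1), .num 0],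
    ![m3 (7) 0 0 1, .num 0, m3 (28) 0 0 1, m3 (-14) 1 0 1, m3 (-49) 0 1 1, m3 (-56) 1 0 1, m3 (-28) 0 0 1, .add (m3 (1) 0 2 1) (m3 (8) 2 0 1), .num 0],
    ![.num 0, .num 0, .num 0, m3 (-7) 0 0 1, .num 0, m3 (-28) 0 0 1, .num 0, m3 (7) 1 0 1, .num 0],
    ![m3 (14) 1 0 1, m3 (21) 0 1 1, m3 (-7) 1 0 1, .add (m3 (1) 0 2 1) (.add (m3 (-21) 1 0 2) (m3 (8) 2 0 1)), .add (m3 (-21) 0 1 2) (m3 (7) 1 1 1), .add (m3 (1) 0 2 1) (m3 (8) 2 0 1), m3 (7) 1 0 1, .add (m3 (-2) 1 2 1) (m3 (-2) 3 0 1), .add (m3 (-21) 0 2 0) (m3 (-21) 2 0 0)],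
    ![.num 0, .num 0, .num 0, .num 0, .num 0, .num 0, .num 0, .add (m3 (-21) 0 2 0) (m3 (-21) 2 0 0), .num 0]]

/-- Block 1 of one output. -/
def b5DII_1 : Fin 5 → Fin 5 → Ex :=
  ![![.num 0, .num 0, m3 (42) 0 0 1, .num 0, .num 0],
    ![.num 0, .num 0, .num 0, m3 (42) 0 0 1, .num 0],
    ![m3 (42) 0 0 1, .num 0, m3 (-84) 1 0 1, m3 (-42) 0 1 1, .num 0],
    ![.num 0, m3 (42) 0 0 1, m3 (-42) 0 1 1, m3 (-84) 1 0 1, m3 (-42) 0 0 1],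
    ![.num 0, .num 0, .num 0, m3 (-42) 0 0 1, .num 0]]

/-- Block 2 of one output. -/
def b5DII_2 : Fin 3 → Fin 3 → Ex :=
  ![![.num 0, m3 (42) 0 0 1, .num 0],
    ![m3 (42) 0 0 1, m3 (-84) 1 0 1, m3 (-42) 0 0 1],
    ![.num 0, m3 (-42) 0 0 1, .num 0]]

lemma b5DII (X Y Z : ℝ) (p : Par) (S₂ S₃ S₄ : Matrix (Fin 5) (Fin 5) ℝ) :
    (jetII X Y Z p S₂ S₃ S₄).baseDiv (.t 0 1) =
      blocks X Y Z p b5DII_0 b5DII_1 b5DII_2 (X ^ 2 + Y ^ 2) X Y / 42 := by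
  norm_num [Jet.baseDiv, Jet.baseY, Jet.gradH, Jet.gradT, Jet.dd, Jet.du, Jet.dl, Jet.Z, C_jetII]
  simp [jetII, Par.mH, Par.mA, Par.mB, Par.x0, Par.x1, Par.x2, blocks, qf,
    b5DII_0, b5DII_1, b5DII_2, m3, PolyPSD.evalAt, Ex.eval, dotProduct, Matrix.mulVec, Matrix.trace,
    Matrix.mul_apply, Matrix.vecMulVec_apply, Matrix.vecMul, Matrix.one_apply, Fin.sum_univ_succ]
  all_goals ring

/-- Block 0 of one output. -/
def b5VII_0 : Fin 9 → Fin 9 → Ex :=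
  ![![.num 0, .num 0, .num 0, .num 0, .num 0, .num 0, .num 0, .num 0, .num 0],
    ![.num 0, .num 0, .num 0, .num 0, .num 0, .num 0, .num 0, .num 0, .num 0],
    ![.num 0, .num 0, .num 0, .num 0, .num 0, .num 0, .num 0, .num 0, .num 0],
    ![.num 0, .num 0, .num 0, .num 0, .num 0, .num 0, .num 0, m3 (1) 1 0 2, .num 0],
    ![.num 0, .num 0, .num 0, .num 0, .num 0, .num 0, .num 0, m3 (1) 0 1 2, .num 0],
    ![.num 0, .num 0, .num 0, .num 0, .num 0, .num 0, .num 0, .num 0, .num 0],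
    ![.num 0, .num 0, .num 0, .num 0, .num 0, .num 0, .num 0, .num 0, .num 0],
    ![.num 0, .num 0, .num 0, m3 (1) 1 0 2, m3 (1) 0 1 2, .num 0, .num 0, .num 0, .num 0],
    ![.num 0, .num 0, .num 0, .num 0, .num 0, .num 0, .num 0, .num 0, .num 0]]

/-- Block 1 of one output. -/
def b5VII_1 : Fin 5 → Fin 5 → Ex :=
  ![![.num 0, .num 0, .num 0, .num 0, .num 0],
    ![.num 0, .num 0, .num 0, .num 0, .num 0],
    ![.num 0, .num 0, .num 0, .num 0, .num 0],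
    ![.num 0, .num 0, .num 0, .num 0, .num 0],
    ![.num 0, .num 0, .num 0, .num 0, .num 0]]

/-- Block 2 of one output. -/
def b5VII_2 : Fin 3 → Fin 3 → Ex :=
  ![![.num 0, .num 0, .num 0],
    ![.num 0, .num 0, .num 0],
    ![.num 0, .num 0, .num 0]]

lemma b5VII (X Y Z : ℝ) (p : Par) (S₂ S₃ S₄ : Matrix (Fin 5) (Fin 5) ℝ) :
    (jetII X Y Z p S₂ S₃ S₄).v ⬝ᵥ (jetII X Y Z p S₂ S₃ S₄).baseY (.t 0 1) =
      blocks X Y Z p b5VII_0 b5VII_1 b5VII_2 (X ^ 2 + Y ^ 2) X Y / 2 := by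
  norm_num [Jet.baseDiv, Jet.baseY, Jet.gradH, Jet.gradT, Jet.dd, Jet.du, Jet.dl, Jet.Z, C_jetII]
  simp [jetII, Par.mH, Par.mA, Par.mB, Par.x0, Par.x1, Par.x2, blocks, qf,
    b5VII_0, b5VII_1, b5VII_2, m3, PolyPSD.evalAt, Ex.eval, dotProduct, Matrix.mulVec, Matrix.trace,
    Matrix.mul_apply, Matrix.vecMulVec_apply, Matrix.vecMul, Matrix.one_apply, Fin.sum_univ_succ]
  all_goals ring

/-- Block 0 of one output. -/
def b5TII_0 : Fin 9 → Fin 9 → Ex :=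
  ![![.num 0, .num 0, .num 0, .num 0, .num 0, .num 0, .num 0, .num 0, .num 0],
    ![.num 0, .num 0, .num 0, .num 0, .num 0, .num 0, .num 0, .num 0, .num 0],
    ![.num 0, .num 0, .num 0, .num 0, .num 0, .num 0, .num 0, .num 0, .num 0],
    ![.num 0, .num 0, .num 0, .num 0, .num 0, .num 0, .num 0, m3 (1) 2 0 1, .num 0],
    ![.num 0, .num 0, .num 0, .num 0, .num 0, .num 0, .num 0, m3 (2) 1 1 1, .num 0],
    ![.num 0, .num 0, .num 0, .num 0, .num 0, .num 0, .num 0, m3 (1) 0 2 1, .num 0],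
    ![.num 0, .num 0, .num 0, .num 0, .num 0, .num 0, .num 0, .num 0, .num 0],
    ![.num 0, .num 0, .num 0, m3 (1) 2 0 1, m3 (2) 1 1 1, m3 (1) 0 2 1, .num 0, .num 0, .num 0],
    ![.num 0, .num 0, .num 0, .num 0, .num 0, .num 0, .num 0, .num 0, .num 0]]

/-- Block 1 of one output. -/
def b5TII_1 : Fin 5 → Fin 5 → Ex :=
  ![![.num 0, .num 0, .num 0, .num 0, .num 0],
    ![.num 0, .num 0, .num 0, .num 0, .num 0],
    ![.num 0, .num 0, .num 0, .num 0, .num 0],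
    ![.num 0, .num 0, .num 0, .num 0, .num 0],
    ![.num 0, .num 0, .num 0, .num 0, .num 0]]

/-- Block 2 of one output. -/
def b5TII_2 : Fin 3 → Fin 3 → Ex :=
  ![![.num 0, .num 0, .num 0],
    ![.num 0, .num 0, .num 0],
    ![.num 0, .num 0, .num 0]]

lemma b5TII (X Y Z : ℝ) (p : Par) (S₂ S₃ S₄ : Matrix (Fin 5) (Fin 5) ℝ) :
    (jetII X Y Z p S₂ S₃ S₄).t ⬝ᵥ (jetII X Y Z p S₂ S₃ S₄).baseY (.t 0 1) =
      blocks X Y Z p b5TII_0 b5TII_1 b5TII_2 (X ^ 2 + Y ^ 2) X Y / 2 := by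
  norm_num [Jet.baseDiv, Jet.baseY, Jet.gradH, Jet.gradT, Jet.dd, Jet.du, Jet.dl, Jet.Z, C_jetII]
  simp [jetII, Par.mH, Par.mA, Par.mB, Par.x0, Par.x1, Par.x2, blocks, qf,
    b5TII_0, b5TII_1, b5TII_2, m3, PolyPSD.evalAt, Ex.eval, dotProduct, Matrix.mulVec, Matrix.trace,
    Matrix.mul_apply, Matrix.vecMulVec_apply, Matrix.vecMul, Matrix.one_apply, Fin.sum_univ_succ]
  all_goals ring

/-- Block 0 of one output. -/
def b5G00II_0 : Fin 9 → Fin 9 → Ex :=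
  ![![.num 0, .num 0, .num 0, m3 (2) 2 0 1, m3 (2) 1 1 1, .num 0, .num 0, .num 0, .num 0],
    ![.num 0, .num 0, .num 0, m3 (2) 1 1 1, .add (m3 (2) 0 2 1) (m3 (2) 2 0 1), m3 (2) 1 1 1, .num 0, .num 0, .num 0],
    ![.num 0, .num 0, .num 0, .num 0, m3 (2) 1 1 1, m3 (2) 0 2 1, .num 0, .num 0, .num 0],
    ![m3 (2) 2 0 1, m3 (2) 1 1 1, .num 0, m3 (-2) 3 0 1, m3 (-3) 2 1 1, m3 (-1) 1 2 1, .num 0, .num 0, .num 0],
    ![m3 (2) 1 1 1, .add (m3 (2) 0 2 1) (m3 (2) 2 0 1), m3 (2) 1 1 1, m3 (-3) 2 1 1, .add (m3 (-4) 1 2 1) (m3 (-2) 3 0 1), .add (m3 (-1) 0 3 1) (m3 (-3) 2 1 1), m3 (-1) 1 1 1, .num 0, .num 0],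
    ![.num 0, m3 (2) 1 1 1, m3 (2) 0 2 1, m3 (-1) 1 2 1, .add (m3 (-1) 0 3 1) (m3 (-3) 2 1 1), m3 (-4) 1 2 1, m3 (-1) 0 2 1, .num 0, .num 0],
    ![.num 0, .num 0, .num 0, .num 0, m3 (-1) 1 1 1, m3 (-1) 0 2 1, .num 0, .num 0, .num 0],
    ![.num 0, .num 0, .num 0, .num 0, .num 0, .num 0, .num 0, .num 0, .num 0],
    ![.num 0, .num 0, .num 0, .num 0, .num 0, .num 0, .num 0, .num 0, .num 0]]

/-- Block 1 of one output. -/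
def b5G00II_1 : Fin 5 → Fin 5 → Ex :=
  ![![.num 0, .num 0, m3 (2) 2 0 1, m3 (2) 1 1 1, .num 0],
    ![.num 0, .num 0, m3 (2) 1 1 1, m3 (2) 0 2 1, .num 0],
    ![m3 (2) 2 0 1, m3 (2) 1 1 1, m3 (-2) 3 0 1, m3 (-3) 2 1 1, m3 (-1) 1 1 1],
    ![m3 (2) 1 1 1, m3 (2) 0 2 1, m3 (-3) 2 1 1, m3 (-4) 1 2 1, m3 (-1) 0 2 1],
    ![.num 0, .num 0, m3 (-1) 1 1 1, m3 (-1) 0 2 1, .num 0]]

/-- Block 2 of one output. -/
def b5G00II_2 : Fin 3 → Fin 3 → Ex :=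
  ![![.num 0, .num 0, .num 0],
    ![.num 0, .num 0, .num 0],
    ![.num 0, .num 0, .num 0]]

lemma b5G00II (X Y Z : ℝ) (p : Par) (S₂ S₃ S₄ : Matrix (Fin 5) (Fin 5) ℝ) :
    (jetII X Y Z p S₂ S₃ S₄).dd 0 0 ⬝ᵥ (jetII X Y Z p S₂ S₃ S₄).baseY (.t 0 1) =
      blocks X Y Z p b5G00II_0 b5G00II_1 b5G00II_2 (X ^ 2 + Y ^ 2) X Y / 2 := by
  norm_num [Jet.baseDiv, Jet.baseY, Jet.gradH, Jet.gradT, Jet.dd, Jet.du, Jet.dl, Jet.Z, C_jetII]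
  simp [jetII, Par.mH, Par.mA, Par.mB, Par.x0, Par.x1, Par.x2, blocks, qf,
    b5G00II_0, b5G00II_1, b5G00II_2, m3, PolyPSD.evalAt, Ex.eval, dotProduct, Matrix.mulVec, Matrix.trace,
    Matrix.mul_apply, Matrix.vecMulVec_apply, Matrix.vecMul, Matrix.one_apply, Fin.sum_univ_succ]
  all_goals ring

/-- Block 0 of one output. -/
def b5G01II_0 : Fin 9 → Fin 9 → Ex :=
  ![![.num 0, .num 0, .num 0, m3 (1) 1 0 2, m3 (1) 0 1 2, .num 0, .num 0, .num 0, .num 0],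
    ![.num 0, .num 0, .num 0, .num 0, m3 (1) 1 0 2, m3 (1) 0 1 2, .num 0, .num 0, .num 0],
    ![.num 0, .num 0, .num 0, .num 0, .num 0, .num 0, .num 0, .num 0, .num 0],
    ![m3 (1) 1 0 2, .num 0, .num 0, m3 (-2) 2 0 2, m3 (-2) 1 1 2, .num 0, .num 0, m3 (-1) 2 0 3, m3 (-1) 2 0 1],
    ![m3 (1) 0 1 2, m3 (1) 1 0 2, .num 0, m3 (-2) 1 1 2, .add (m3 (-2) 0 2 2) (m3 (-2) 2 0 2), m3 (-2) 1 1 2, .num 0, m3 (-1) 1 1 3, m3 (-2) 1 1 1],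
    ![.num 0, m3 (1) 0 1 2, .num 0, .num 0, m3 (-2) 1 1 2, m3 (-2) 0 2 2, .num 0, .num 0, m3 (-1) 0 2 1],
    ![.num 0, .num 0, .num 0, .num 0, .num 0, .num 0, .num 0, .num 0, .num 0],
    ![.num 0, .num 0, .num 0, m3 (-1) 2 0 3, m3 (-1) 1 1 3, .num 0, .num 0, .num 0, .num 0],
    ![.num 0, .num 0, .num 0, m3 (-1) 2 0 1, m3 (-2) 1 1 1, m3 (-1) 0 2 1, .num 0, .num 0, .num 0]]

/-- Block 1 of one output. -/
def b5G01II_1 : Fin 5 → Fin 5 → Ex :=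
  ![![.num 0, .num 0, m3 (1) 1 0 2, m3 (1) 0 1 2, .num 0],
    ![.num 0, .num 0, .num 0, .num 0, .num 0],
    ![m3 (1) 1 0 2, .num 0, m3 (-2) 2 0 2, m3 (-2) 1 1 2, .num 0],
    ![m3 (1) 0 1 2, .num 0, m3 (-2) 1 1 2, m3 (-2) 0 2 2, .num 0],
    ![.num 0, .num 0, .num 0, .num 0, .num 0]]

/-- Block 2 of one output. -/
def b5G01II_2 : Fin 3 → Fin 3 → Ex :=
  ![![.num 0, .num 0, .num 0],
    ![.num 0, .num 0, .num 0],
    ![.num 0, .num 0, .num 0]]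

lemma b5G01II (X Y Z : ℝ) (p : Par) (S₂ S₃ S₄ : Matrix (Fin 5) (Fin 5) ℝ) :
    (jetII X Y Z p S₂ S₃ S₄).dd 0 1 ⬝ᵥ (jetII X Y Z p S₂ S₃ S₄).baseY (.t 0 1) =
      blocks X Y Z p b5G01II_0 b5G01II_1 b5G01II_2 (X ^ 2 + Y ^ 2) X Y / 2 := by
  norm_num [Jet.baseDiv, Jet.baseY, Jet.gradH, Jet.gradT, Jet.dd, Jet.du, Jet.dl, Jet.Z, C_jetII]
  simp [jetII, Par.mH, Par.mA, Par.mB, Par.x0, Par.x1, Par.x2, blocks, qf,
    b5G01II_0, b5G01II_1, b5G01II_2, m3, PolyPSD.evalAt, Ex.eval, dotProduct, Matrix.mulVec, Matrix.trace,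
    Matrix.mul_apply, Matrix.vecMulVec_apply, Matrix.vecMul, Matrix.one_apply, Fin.sum_univ_succ]
  all_goals ring

/-- Block 0 of one output. -/
def b5G11II_0 : Fin 9 → Fin 9 → Ex :=
  ![![.num 0, .num 0, .num 0, .num 0, .num 0, .num 0, .num 0, .num 0, .num 0],
    ![.num 0, .num 0, .num 0, .num 0, .num 0, .num 0, .num 0, .num 0, .num 0],
    ![.num 0, .num 0, .num 0, .num 0, .num 0, .num 0, .num 0, .num 0, .num 0],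
    ![.num 0, .num 0, .num 0, m3 (-2) 1 0 3, m3 (-1) 0 1 3, .num 0, .num 0, m3 (-2) 1 0 4, m3 (-2) 1 0 2],
    ![.num 0, .num 0, .num 0, m3 (-1) 0 1 3, m3 (-2) 1 0 3, m3 (-1) 0 1 3, .num 0, m3 (-2) 0 1 4, m3 (-2) 0 1 2],
    ![.num 0, .num 0, .num 0, .num 0, m3 (-1) 0 1 3, .num 0, .num 0, .num 0, .num 0],
    ![.num 0, .num 0, .num 0, .num 0, .num 0, .num 0, .num 0, .num 0, .num 0],
    ![.num 0, .num 0, .num 0, m3 (-2) 1 0 4, m3 (-2) 0 1 4, .num 0, .num 0, .num 0, .num 0],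
    ![.num 0, .num 0, .num 0, m3 (-2) 1 0 2, m3 (-2) 0 1 2, .num 0, .num 0, .num 0, .num 0]]

/-- Block 1 of one output. -/
def b5G11II_1 : Fin 5 → Fin 5 → Ex :=
  ![![.num 0, .num 0, .num 0, .num 0, .num 0],
    ![.num 0, .num 0, .num 0, .num 0, .num 0],
    ![.num 0, .num 0, m3 (-2) 1 0 3, m3 (-1) 0 1 3, .num 0],
    ![.num 0, .num 0, m3 (-1) 0 1 3, .num 0, .num 0],
    ![.num 0, .num 0, .num 0, .num 0, .num 0]]

/-- Block 2 of one output. -/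
def b5G11II_2 : Fin 3 → Fin 3 → Ex :=
  ![![.num 0, .num 0, .num 0],
    ![.num 0, .num 0, .num 0],
    ![.num 0, .num 0, .num 0]]

lemma b5G11II (X Y Z : ℝ) (p : Par) (S₂ S₃ S₄ : Matrix (Fin 5) (Fin 5) ℝ) :
    (jetII X Y Z p S₂ S₃ S₄).dd 1 1 ⬝ᵥ (jetII X Y Z p S₂ S₃ S₄).baseY (.t 0 1) =
      blocks X Y Z p b5G11II_0 b5G11II_1 b5G11II_2 (X ^ 2 + Y ^ 2) X Y / 2 := by
  norm_num [Jet.baseDiv, Jet.baseY, Jet.gradH, Jet.gradT, Jet.dd, Jet.du, Jet.dl, Jet.Z, C_jetII]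
  simp [jetII, Par.mH, Par.mA, Par.mB, Par.x0, Par.x1, Par.x2, blocks, qf,
    b5G11II_0, b5G11II_1, b5G11II_2, m3, PolyPSD.evalAt, Ex.eval, dotProduct, Matrix.mulVec, Matrix.trace,
    Matrix.mul_apply, Matrix.vecMulVec_apply, Matrix.vecMul, Matrix.one_apply, Fin.sum_univ_succ]
  all_goals ring

end Vale.Agent.P252.General.Cert5
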