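import Vale.Agent.P252.Rigidity.General.Cert5.Jets

/-! Block forms of one basic field in one frame, generated and checked by `ring`. -/

namespace Vale.Agent.P252.General.Cert5

open Vale.Agent.P100T.PosCheck
open scoped Matrix

set_option linter.unusedSimpArgs false

/-- Block 0 of one output. -/
def b7DII_0 : Fin 9 → Fin 9 → Ex :=
  ![![m3 (14) 1 0 1, m3 (7) 0 1 1, .num 0, .num 0, m3 (7) 1 1 1, m3 (7) 0 2 1, .num 0, .add (m3 (-6) 1 2 1) (m3 (-6) 3 0 1), m3 (-28) 2 0 0],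
    ![m3 (7) 0 1 1, m3 (14) 1 0 1, m3 (7) 0 1 1, m3 (-7) 1 1 1, m3 (-7) 0 2 1, m3 (7) 1 1 1, m3 (7) 0 1 1, .add (m3 (-6) 0 3 1) (.add (m3 (-7) 1 1 2) (m3 (-6) 2 1 1)), m3 (-56) 1 1 0],
    ![.num 0, m3 (7) 0 1 1, .num 0, .num 0, m3 (-7) 1 1 1, m3 (-7) 0 2 1, .num 0, m3 (-7) 0 2 2, m3 (-28) 0 2 0],
    ![.num 0, m3 (-7) 1 1 1, .num 0, .num 0, .num 0, .num 0, .num 0, .num 0, .num 0],
    ![m3 (7) 1 1 1, m3 (-7) 0 2 1, m3 (-7) 1 1 1, .num 0, .num 0, .num 0, .num 0, .num 0, .num 0],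
    ![m3 (7) 0 2 1, m3 (7) 1 1 1, m3 (-7) 0 2 1, .num 0, .num 0, .num 0, .num 0, .num 0, .num 0],
    ![.num 0, m3 (7) 0 1 1, .num 0, .num 0, .num 0, .num 0, .num 0, .num 0, .num 0],
    ![.add (m3 (-6) 1 2 1) (m3 (-6) 3 0 1), .add (m3 (-6) 0 3 1) (.add (m3 (-7) 1 1 2) (m3 (-6) 2 1 1)), m3 (-7) 0 2 2, .num 0, .num 0, .num 0, .num 0, .num 0, .num 0],
    ![m3 (-28) 2 0 0, m3 (-56) 1 1 0, m3 (-28) 0 2 0, .num 0, .num 0, .num 0, .num 0, .num 0, .num 0]]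

/-- Block 1 of one output. -/
def b7DII_1 : Fin 5 → Fin 5 → Ex :=
  ![![m3 (14) 1 0 1, m3 (7) 0 1 1, .num 0, m3 (7) 1 1 1, m3 (7) 0 1 1],
    ![m3 (7) 0 1 1, .num 0, m3 (-7) 1 1 1, m3 (-7) 0 2 1, .num 0],
    ![.num 0, m3 (-7) 1 1 1, .num 0, .num 0, .num 0],
    ![m3 (7) 1 1 1, m3 (-7) 0 2 1, .num 0, .num 0, .num 0],
    ![m3 (7) 0 1 1, .num 0, .num 0, .num 0, .num 0]]

/-- Block 2 of one output. -/
def b7DII_2 : Fin 3 → Fin 3 → Ex :=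
  ![![.num 0, .num 0, .num 0],
    ![.num 0, .num 0, .num 0],
    ![.num 0, .num 0, .num 0]]

lemma b7DII (X Y Z : ℝ) (p : Par) (S₂ S₃ S₄ : Matrix (Fin 5) (Fin 5) ℝ) :
    (jetII X Y Z p S₂ S₃ S₄).baseDiv (.ah 0) =
      blocks X Y Z p b7DII_0 b7DII_1 b7DII_2 (X ^ 2 + Y ^ 2) X Y / 14 := by
  norm_num [Jet.baseDiv, Jet.baseY, Jet.gradH, Jet.gradT, Jet.dd, Jet.du, Jet.dl, Jet.Z, C_jetII]
  simp [jetII, Par.mH, Par.mA, Par.mB, Par.x0, Par.x1, Par.x2, blocks, qf,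
    b7DII_0, b7DII_1, b7DII_2, m3, PolyPSD.evalAt, Ex.eval, dotProduct, Matrix.mulVec, Matrix.trace,
    Matrix.mul_apply, Matrix.vecMulVec_apply, Matrix.vecMul, Matrix.one_apply, Fin.sum_univ_succ]
  all_goals ring

/-- Block 0 of one output. -/
def b7VII_0 : Fin 9 → Fin 9 → Ex :=
  ![![.num 0, .num 0, .num 0, .num 0, .num 0, .num 0, .num 0, .num 0, .num 0],
    ![.num 0, .num 0, .num 0, .num 0, .num 0, .num 0, .num 0, m3 (1) 1 1 2, .num 0],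
    ![.num 0, .num 0, .num 0, .num 0, .num 0, .num 0, .num 0, m3 (1) 0 2 2, .num 0],
    ![.num 0, .num 0, .num 0, .num 0, .num 0, .num 0, .num 0, .num 0, .num 0],
    ![.num 0, .num 0, .num 0, .num 0, .num 0, .num 0, .num 0, .num 0, .num 0],
    ![.num 0, .num 0, .num 0, .num 0, .num 0, .num 0, .num 0, .num 0, .num 0],
    ![.num 0, .num 0, .num 0, .num 0, .num 0, .num 0, .num 0, .num 0, .num 0],
    ![.num 0, m3 (1) 1 1 2, m3 (1) 0 2 2, .num 0, .num 0, .num 0, .num 0, .num 0, .num 0],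
    ![.num 0, .num 0, .num 0, .num 0, .num 0, .num 0, .num 0, .num 0, .num 0]]

/-- Block 1 of one output. -/
def b7VII_1 : Fin 5 → Fin 5 → Ex :=
  ![![.num 0, .num 0, .num 0, .num 0, .num 0],
    ![.num 0, .num 0, .num 0, .num 0, .num 0],
    ![.num 0, .num 0, .num 0, .num 0, .num 0],
    ![.num 0, .num 0, .num 0, .num 0, .num 0],
    ![.num 0, .num 0, .num 0, .num 0, .num 0]]

/-- Block 2 of one output. -/
def b7VII_2 : Fin 3 → Fin 3 → Ex :=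
  ![![.num 0, .num 0, .num 0],
    ![.num 0, .num 0, .num 0],
    ![.num 0, .num 0, .num 0]]

lemma b7VII (X Y Z : ℝ) (p : Par) (S₂ S₃ S₄ : Matrix (Fin 5) (Fin 5) ℝ) :
    (jetII X Y Z p S₂ S₃ S₄).v ⬝ᵥ (jetII X Y Z p S₂ S₃ S₄).baseY (.ah 0) =
      blocks X Y Z p b7VII_0 b7VII_1 b7VII_2 (X ^ 2 + Y ^ 2) X Y / 2 := by
  norm_num [Jet.baseDiv, Jet.baseY, Jet.gradH, Jet.gradT, Jet.dd, Jet.du, Jet.dl, Jet.Z, C_jetII]
  simp [jetII, Par.mH, Par.mA, Par.mB, Par.x0, Par.x1, Par.x2, blocks, qf,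
    b7VII_0, b7VII_1, b7VII_2, m3, PolyPSD.evalAt, Ex.eval, dotProduct, Matrix.mulVec, Matrix.trace,
    Matrix.mul_apply, Matrix.vecMulVec_apply, Matrix.vecMul, Matrix.one_apply, Fin.sum_univ_succ]
  all_goals ring

/-- Block 0 of one output. -/
def b7TII_0 : Fin 9 → Fin 9 → Ex :=
  ![![.num 0, .num 0, .num 0, .num 0, .num 0, .num 0, .num 0, m3 (-1) 1 2 1, .num 0],
    ![.num 0, .num 0, .num 0, .num 0, .num 0, .num 0, .num 0, .add (m3 (-1) 0 3 1) (m3 (1) 2 1 1), .num 0],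
    ![.num 0, .num 0, .num 0, .num 0, .num 0, .num 0, .num 0, m3 (1) 1 2 1, .num 0],
    ![.num 0, .num 0, .num 0, .num 0, .num 0, .num 0, .num 0, .num 0, .num 0],
    ![.num 0, .num 0, .num 0, .num 0, .num 0, .num 0, .num 0, .num 0, .num 0],
    ![.num 0, .num 0, .num 0, .num 0, .num 0, .num 0, .num 0, .num 0, .num 0],
    ![.num 0, .num 0, .num 0, .num 0, .num 0, .num 0, .num 0, .num 0, .num 0],
    ![m3 (-1) 1 2 1, .add (m3 (-1) 0 3 1) (m3 (1) 2 1 1), m3 (1) 1 2 1, .num 0, .num 0, .num 0, .num 0, .num 0, .num 0],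
    ![.num 0, .num 0, .num 0, .num 0, .num 0, .num 0, .num 0, .num 0, .num 0]]

/-- Block 1 of one output. -/
def b7TII_1 : Fin 5 → Fin 5 → Ex :=
  ![![.num 0, .num 0, .num 0, .num 0, .num 0],
    ![.num 0, .num 0, .num 0, .num 0, .num 0],
    ![.num 0, .num 0, .num 0, .num 0, .num 0],
    ![.num 0, .num 0, .num 0, .num 0, .num 0],
    ![.num 0, .num 0, .num 0, .num 0, .num 0]]

/-- Block 2 of one output. -/
def b7TII_2 : Fin 3 → Fin 3 → Ex :=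
  ![![.num 0, .num 0, .num 0],
    ![.num 0, .num 0, .num 0],
    ![.num 0, .num 0, .num 0]]

lemma b7TII (X Y Z : ℝ) (p : Par) (S₂ S₃ S₄ : Matrix (Fin 5) (Fin 5) ℝ) :
    (jetII X Y Z p S₂ S₃ S₄).t ⬝ᵥ (jetII X Y Z p S₂ S₃ S₄).baseY (.ah 0) =
      blocks X Y Z p b7TII_0 b7TII_1 b7TII_2 (X ^ 2 + Y ^ 2) X Y / 2 := by
  norm_num [Jet.baseDiv, Jet.baseY, Jet.gradH, Jet.gradT, Jet.dd, Jet.du, Jet.dl, Jet.Z, C_jetII]
  simp [jetII, Par.mH, Par.mA, Par.mB, Par.x0, Par.x1, Par.x2, blocks, qf,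
    b7TII_0, b7TII_1, b7TII_2, m3, PolyPSD.evalAt, Ex.eval, dotProduct, Matrix.mulVec, Matrix.trace,
    Matrix.mul_apply, Matrix.vecMulVec_apply, Matrix.vecMul, Matrix.one_apply, Fin.sum_univ_succ]
  all_goals ring

/-- Block 0 of one output. -/
def b7G00II_0 : Fin 9 → Fin 9 → Ex :=
  ![![.num 0, .num 0, .num 0, .num 0, m3 (1) 3 1 1, m3 (2) 2 2 1, m3 (1) 1 2 1, .num 0, .num 0],
    ![.num 0, .num 0, .num 0, m3 (-1) 3 1 1, m3 (-1) 2 2 1, m3 (1) 1 3 1, m3 (1) 0 3 1, .num 0, .num 0],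
    ![.num 0, .num 0, .num 0, m3 (-1) 2 2 1, m3 (-2) 1 3 1, m3 (-1) 0 4 1, .num 0, .num 0, .num 0],
    ![.num 0, m3 (-1) 3 1 1, m3 (-1) 2 2 1, .num 0, .num 0, .num 0, .num 0, .num 0, .num 0],
    ![m3 (1) 3 1 1, m3 (-1) 2 2 1, m3 (-2) 1 3 1, .num 0, .num 0, .num 0, .num 0, .num 0, .num 0],
    ![m3 (2) 2 2 1, m3 (1) 1 3 1, m3 (-1) 0 4 1, .num 0, .num 0, .num 0, .num 0, .num 0, .num 0],
    ![m3 (1) 1 2 1, m3 (1) 0 3 1, .num 0, .num 0, .num 0, .num 0, .num 0, .num 0, .num 0],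
    ![.num 0, .num 0, .num 0, .num 0, .num 0, .num 0, .num 0, .num 0, .num 0],
    ![.num 0, .num 0, .num 0, .num 0, .num 0, .num 0, .num 0, .num 0, .num 0]]

/-- Block 1 of one output. -/
def b7G00II_1 : Fin 5 → Fin 5 → Ex :=
  ![![.num 0, .num 0, .num 0, .num 0, .num 0],
    ![.num 0, .num 0, .num 0, .num 0, .num 0],
    ![.num 0, .num 0, .num 0, .num 0, .num 0],
    ![.num 0, .num 0, .num 0, .num 0, .num 0],
    ![.num 0, .num 0, .num 0, .num 0, .num 0]]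

/-- Block 2 of one output. -/
def b7G00II_2 : Fin 3 → Fin 3 → Ex :=
  ![![.num 0, .num 0, .num 0],
    ![.num 0, .num 0, .num 0],
    ![.num 0, .num 0, .num 0]]

lemma b7G00II (X Y Z : ℝ) (p : Par) (S₂ S₃ S₄ : Matrix (Fin 5) (Fin 5) ℝ) :
    (jetII X Y Z p S₂ S₃ S₄).dd 0 0 ⬝ᵥ (jetII X Y Z p S₂ S₃ S₄).baseY (.ah 0) =
      blocks X Y Z p b7G00II_0 b7G00II_1 b7G00II_2 (X ^ 2 + Y ^ 2) X Y / 2 := by
  norm_num [Jet.baseDiv, Jet.baseY, Jet.gradH, Jet.gradT, Jet.dd, Jet.du, Jet.dl, Jet.Z, C_jetII]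
  simp [jetII, Par.mH, Par.mA, Par.mB, Par.x0, Par.x1, Par.x2, blocks, qf,
    b7G00II_0, b7G00II_1, b7G00II_2, m3, PolyPSD.evalAt, Ex.eval, dotProduct, Matrix.mulVec, Matrix.trace,
    Matrix.mul_apply, Matrix.vecMulVec_apply, Matrix.vecMul, Matrix.one_apply, Fin.sum_univ_succ]
  all_goals ring

/-- Block 0 of one output. -/
def b7G01II_0 : Fin 9 → Fin 9 → Ex :=
  ![![.num 0, .num 0, m3 (1) 0 2 2, .num 0, m3 (1) 2 1 2, m3 (1) 1 2 2, .num 0, .num 0, m3 (1) 1 2 1],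
    ![.num 0, m3 (-2) 0 2 2, .num 0, m3 (-1) 2 1 2, .num 0, m3 (1) 0 3 2, .num 0, m3 (-1) 2 1 3, .add (m3 (1) 0 3 1) (m3 (-1) 2 1 1)],
    ![m3 (1) 0 2 2, .num 0, .num 0, m3 (-1) 1 2 2, m3 (-1) 0 3 2, .num 0, .num 0, m3 (-1) 1 2 3, m3 (-1) 1 2 1],
    ![.num 0, m3 (-1) 2 1 2, m3 (-1) 1 2 2, .num 0, .num 0, .num 0, .num 0, .num 0, .num 0],
    ![m3 (1) 2 1 2, .num 0, m3 (-1) 0 3 2, .num 0, .num 0, .num 0, .num 0, .num 0, .num 0],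
    ![m3 (1) 1 2 2, m3 (1) 0 3 2, .num 0, .num 0, .num 0, .num 0, .num 0, .num 0, .num 0],
    ![.num 0, .num 0, .num 0, .num 0, .num 0, .num 0, .num 0, .num 0, .num 0],
    ![.num 0, m3 (-1) 2 1 3, m3 (-1) 1 2 3, .num 0, .num 0, .num 0, .num 0, .num 0, .num 0],
    ![m3 (1) 1 2 1, .add (m3 (1) 0 3 1) (m3 (-1) 2 1 1), m3 (-1) 1 2 1, .num 0, .num 0, .num 0, .num 0, .num 0, .num 0]]

/-- Block 1 of one output. -/
def b7G01II_1 : Fin 5 → Fin 5 → Ex :=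
  ![![.num 0, .num 0, .num 0, .num 0, .num 0],
    ![.num 0, .num 0, .num 0, .num 0, .num 0],
    ![.num 0, .num 0, .num 0, .num 0, .num 0],
    ![.num 0, .num 0, .num 0, .num 0, .num 0],
    ![.num 0, .num 0, .num 0, .num 0, .num 0]]

/-- Block 2 of one output. -/
def b7G01II_2 : Fin 3 → Fin 3 → Ex :=
  ![![.num 0, .num 0, .num 0],
    ![.num 0, .num 0, .num 0],
    ![.num 0, .num 0, .num 0]]

lemma b7G01II (X Y Z : ℝ) (p : Par) (S₂ S₃ S₄ : Matrix (Fin 5) (Fin 5) ℝ) :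
    (jetII X Y Z p S₂ S₃ S₄).dd 0 1 ⬝ᵥ (jetII X Y Z p S₂ S₃ S₄).baseY (.ah 0) =
      blocks X Y Z p b7G01II_0 b7G01II_1 b7G01II_2 (X ^ 2 + Y ^ 2) X Y / 2 := by
  norm_num [Jet.baseDiv, Jet.baseY, Jet.gradH, Jet.gradT, Jet.dd, Jet.du, Jet.dl, Jet.Z, C_jetII]
  simp [jetII, Par.mH, Par.mA, Par.mB, Par.x0, Par.x1, Par.x2, blocks, qf,
    b7G01II_0, b7G01II_1, b7G01II_2, m3, PolyPSD.evalAt, Ex.eval, dotProduct, Matrix.mulVec, Matrix.trace,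
    Matrix.mul_apply, Matrix.vecMulVec_apply, Matrix.vecMul, Matrix.one_apply, Fin.sum_univ_succ]
  all_goals ring

/-- Block 0 of one output. -/
def b7G11II_0 : Fin 9 → Fin 9 → Ex :=
  ![![.num 0, .num 0, .num 0, .num 0, m3 (1) 1 1 3, .num 0, .num 0, .num 0, .num 0],
    ![.num 0, .num 0, .num 0, m3 (-1) 1 1 3, m3 (1) 0 2 3, .num 0, .num 0, m3 (-2) 1 1 4, m3 (-2) 1 1 2],
    ![.num 0, .num 0, .num 0, m3 (-1) 0 2 3, .num 0, .num 0, .num 0, m3 (-2) 0 2 4, m3 (-2) 0 2 2],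
    ![.num 0, m3 (-1) 1 1 3, m3 (-1) 0 2 3, .num 0, .num 0, .num 0, .num 0, .num 0, .num 0],
    ![m3 (1) 1 1 3, m3 (1) 0 2 3, .num 0, .num 0, .num 0, .num 0, .num 0, .num 0, .num 0],
    ![.num 0, .num 0, .num 0, .num 0, .num 0, .num 0, .num 0, .num 0, .num 0],
    ![.num 0, .num 0, .num 0, .num 0, .num 0, .num 0, .num 0, .num 0, .num 0],
    ![.num 0, m3 (-2) 1 1 4, m3 (-2) 0 2 4, .num 0, .num 0, .num 0, .num 0, .num 0, .num 0],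
    ![.num 0, m3 (-2) 1 1 2, m3 (-2) 0 2 2, .num 0, .num 0, .num 0, .num 0, .num 0, .num 0]]

/-- Block 1 of one output. -/
def b7G11II_1 : Fin 5 → Fin 5 → Ex :=
  ![![.num 0, .num 0, .num 0, .num 0, .num 0],
    ![.num 0, .num 0, .num 0, .num 0, .num 0],
    ![.num 0, .num 0, .num 0, .num 0, .num 0],
    ![.num 0, .num 0, .num 0, .num 0, .num 0],
    ![.num 0, .num 0, .num 0, .num 0, .num 0]]

/-- Block 2 of one output. -/
def b7G11II_2 : Fin 3 → Fin 3 → Ex :=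
  ![![.num 0, .num 0, .num 0],
    ![.num 0, .num 0, .num 0],
    ![.num 0, .num 0, .num 0]]

lemma b7G11II (X Y Z : ℝ) (p : Par) (S₂ S₃ S₄ : Matrix (Fin 5) (Fin 5) ℝ) :
    (jetII X Y Z p S₂ S₃ S₄).dd 1 1 ⬝ᵥ (jetII X Y Z p S₂ S₃ S₄).baseY (.ah 0) =
      blocks X Y Z p b7G11II_0 b7G11II_1 b7G11II_2 (X ^ 2 + Y ^ 2) X Y / 2 := by
  norm_num [Jet.baseDiv, Jet.baseY, Jet.gradH, Jet.gradT, Jet.dd, Jet.du, Jet.dl, Jet.Z, C_jetII]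
  simp [jetII, Par.mH, Par.mA, Par.mB, Par.x0, Par.x1, Par.x2, blocks, qf,
    b7G11II_0, b7G11II_1, b7G11II_2, m3, PolyPSD.evalAt, Ex.eval, dotProduct, Matrix.mulVec, Matrix.trace,
    Matrix.mul_apply, Matrix.vecMulVec_apply, Matrix.vecMul, Matrix.one_apply, Fin.sum_univ_succ]
  all_goals ring

end Vale.Agent.P252.General.Cert5
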